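import Vale.Agent.P209.Embed

namespace Vale.Agent.P209

variable {n : ℕ}

/-- lower triangular matrix of ones -/
def Dm (n : ℕ) : Matrix (Fin n) (Fin n) ℤ := fun i j => if j ≤ i then 1 else 0

theorem Dm_det (n : ℕ) : (Dm n).det = 1 := by
  rw [Matrix.det_of_isLowerTriangular]
  · simp [Dm]
  · intro i j hij
    have : ¬ j ≤ i := not_le.2 hij
    simp [Dm, this]

/-- partial sums -/
def psum (y : Fin n → ℝ) (i : Fin n) : ℝ := ∑ j ∈ Finset.Iic i, y j

theorem psum_eq (y : Fin n → ℝ) (i : Fin n) :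
    psum y i = ∑ j, ((Dm n i j : ℤ) : ℝ) * y j := by
  unfold psum Dm
  rw [← Finset.sum_filter_add_sum_filter_not Finset.univ (fun j => j ≤ i)]
  have h1 : ∑ x ∈ Finset.univ.filter (fun j => ¬ j ≤ i),
      (((if x ≤ i then 1 else 0 : ℤ)) : ℝ) * y x = 0 := by
    apply Finset.sum_eq_zero
    intro x hx
    rw [Finset.mem_filter] at hx
    simp [hx.2]
  rw [h1, add_zero]
  have h2 : Finset.Iic i = Finset.univ.filter (fun j => j ≤ i) := by
    ext j; simp
  rw [h2]
  refine Finset.sum_congr rfl fun x hx => ?_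
  rw [Finset.mem_filter] at hx
  simp [hx.2]

/-- matrix of the alcove attached to a permutation -/
noncomputable def alcA (σ : Equiv.Perm (Fin n)) : Matrix (Fin n) (Fin n) ℤ :=
  (Dm n)⁻¹ * (σ.permMatrix ℤ * Dm n)

noncomputable def alcB (σ : Equiv.Perm (Fin n)) : Matrix (Fin n) (Fin n) ℤ :=
  ((alcA σ)⁻¹).transpose

theorem alcA_det (σ : Equiv.Perm (Fin n)) : IsUnit (alcA σ).det := by
  unfold alcA
  rw [Matrix.det_mul, Matrix.det_mul, Matrix.det_permutation, Dm_det, mul_one]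
  have h1 : (Dm n)⁻¹.det = 1 := by
    have := Matrix.det_nonsing_inv_mul_det (Dm n) (by rw [Dm_det]; exact isUnit_one)
    rw [Dm_det, mul_one] at this
    exact this
  rw [h1, one_mul]
  exact Units.isUnit _

theorem alc_AB (σ : Equiv.Perm (Fin n)) : (alcA σ).transpose * alcB σ = 1 := by
  unfold alcB
  rw [← Matrix.transpose_mul, Matrix.nonsing_inv_mul _ (alcA_det σ), Matrix.transpose_one]

theorem Dm_alcA (σ : Equiv.Perm (Fin n)) : Dm n * alcA σ = σ.permMatrix ℤ * Dm n := by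
  unfold alcA
  rw [← Matrix.mul_assoc, Matrix.mul_nonsing_inv _ (by rw [Dm_det]; exact isUnit_one),
    Matrix.one_mul]

theorem psum_alcA (σ : Equiv.Perm (Fin n)) (x : Fin n → ℝ) (i : Fin n) :
    psum (fun j => ∑ k, ((alcA σ j k : ℤ) : ℝ) * x k) i = psum x (σ i) := by
  rw [psum_eq, psum_eq]
  have h : ∀ k, ∑ j, (Dm n i j) * (alcA σ j k) = Dm n (σ i) k := by
    intro k
    have := congrFun (congrFun (Dm_alcA σ) i) k
    rw [Matrix.mul_apply] at this
    rw [this, Matrix.mul_apply]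
    simp [Equiv.Perm.permMatrix, PEquiv.toMatrix_apply]
  calc ∑ j, ((Dm n i j : ℤ) : ℝ) * ∑ k, ((alcA σ j k : ℤ) : ℝ) * x k
      = ∑ j, ∑ k, (((Dm n i j * alcA σ j k : ℤ)) : ℝ) * x k := by
        refine Finset.sum_congr rfl fun j _ => ?_
        rw [Finset.mul_sum]
        refine Finset.sum_congr rfl fun k _ => ?_
        push_cast; ring
    _ = ∑ k, ((∑ j, Dm n i j * alcA σ j k : ℤ) : ℝ) * x k := by
        rw [Finset.sum_comm]
        refine Finset.sum_congr rfl fun k _ => ?_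
        push_cast
        rw [Finset.sum_mul]
    _ = ∑ k, ((Dm n (σ i) k : ℤ) : ℝ) * x k := by
        refine Finset.sum_congr rfl fun k _ => ?_
        rw [h]

/-- translation vector with prescribed partial sums -/
noncomputable def tvec (c : Fin n → ℝ) (i : Fin n) : ℝ :=
  ∑ j, (((Dm n)⁻¹ i j : ℤ) : ℝ) * c j

theorem psum_tvec (c : Fin n → ℝ) (i : Fin n) : psum (tvec c) i = c i := by
  rw [psum_eq]
  unfold tvec
  have h : ∀ k, ∑ j, (Dm n i j) * ((Dm n)⁻¹ j k) = if i = k then 1 else 0 := by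
    intro k
    have := congrFun (congrFun (Matrix.mul_nonsing_inv (Dm n)
      (by rw [Dm_det]; exact isUnit_one)) i) k
    rw [Matrix.mul_apply, Matrix.one_apply] at this
    exact this
  calc ∑ j, ((Dm n i j : ℤ) : ℝ) * ∑ k, (((Dm n)⁻¹ j k : ℤ) : ℝ) * c k
      = ∑ j, ∑ k, (((Dm n i j * (Dm n)⁻¹ j k : ℤ)) : ℝ) * c k := by
        refine Finset.sum_congr rfl fun j _ => ?_
        rw [Finset.mul_sum]
        refine Finset.sum_congr rfl fun k _ => ?_
        push_cast; ring
    _ = ∑ k, ((∑ j, Dm n i j * (Dm n)⁻¹ j k : ℤ) : ℝ) * c k := by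
        rw [Finset.sum_comm]
        refine Finset.sum_congr rfl fun k _ => ?_
        push_cast
        rw [Finset.sum_mul]
    _ = c i := by
        simp only [h]
        simp

theorem psum_add (x y : Fin n → ℝ) (i : Fin n) :
    psum (fun j => x j + y j) i = psum x i + psum y i := by
  unfold psum
  exact Finset.sum_add_distrib

/-- the affine map of the alcove attached to `σ` and the translation `c`. -/
noncomputable def alc (σ : Equiv.Perm (Fin n)) (c : Fin n → ℝ) (x : Fin n → ℝ) (j : Fin n) : ℝ :=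
  ∑ k, ((alcA σ j k : ℤ) : ℝ) * x k + tvec c j

theorem psum_alc (σ : Equiv.Perm (Fin n)) (c x : Fin n → ℝ) (i : Fin n) :
    psum (alc σ c x) i = psum x (σ i) + c i := by
  unfold alc
  rw [psum_add, psum_alcA, psum_tvec]

theorem psum_succ {m : ℕ} (y : Fin (m + 1) → ℝ) (i : Fin m) :
    psum y i.succ = psum y i.castSucc + y i.succ := by
  unfold psum
  have : Finset.Iic i.succ = insert i.succ (Finset.Iic i.castSucc) := by
    ext j
    simp only [Finset.mem_Iic, Finset.mem_insert, Fin.le_def, Fin.ext_iff, Fin.val_succ,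
      Fin.val_castSucc]
    omega
  rw [this, Finset.sum_insert, add_comm]
  simp [Fin.le_def]

theorem psum_zero {m : ℕ} (y : Fin (m + 1) → ℝ) : psum y 0 = y 0 := by
  unfold psum
  have : Finset.Iic (0 : Fin (m + 1)) = {0} := by
    ext j
    simp only [Finset.mem_Iic, Finset.mem_singleton, Fin.le_def, Fin.ext_iff, Fin.val_zero]
    omega
  rw [this, Finset.sum_singleton]

theorem psum_last {m : ℕ} (y : Fin (m + 1) → ℝ) : psum y (Fin.last m) = ∑ j, y j := by
  unfold psum
  have : Finset.Iic (Fin.last m) = Finset.univ := by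
    ext j
    simp [Fin.le_last]
  rw [this]

theorem pos_of_psum {m : ℕ} {y : Fin (m + 1) → ℝ} (h0 : ∀ i, 0 < psum y i)
    (hm : StrictMono (psum y)) (j : Fin (m + 1)) : 0 < y j := by
  refine Fin.cases ?_ (fun i => ?_) j
  · rw [← psum_zero y]; exact h0 0
  · have h1 := psum_succ y i
    have h2 : psum y i.castSucc < psum y i.succ := hm (by simp [Fin.lt_def])
    linarith

theorem psum_simp0 {m : ℕ} {s : ℝ} {x : Fin (m + 1) → ℝ} (hx : x ∈ simp0 (m + 1) s) :
    (∀ i, 0 < psum x i) ∧ StrictMono (psum x) ∧ ∀ i, psum x i < s := by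
  have h2 : StrictMono (psum x) := by
    rw [Fin.strictMono_iff_lt_succ]
    intro i
    rw [psum_succ]
    have := hx.1 i.succ
    linarith
  refine ⟨fun i => ?_, h2, fun i => ?_⟩
  · have h3 : psum x 0 ≤ psum x i := h2.monotone (Fin.zero_le _)
    rw [psum_zero] at h3
    exact (hx.1 0).trans_le h3
  · have h3 : psum x i ≤ psum x (Fin.last m) := h2.monotone (Fin.le_last _)
    rw [psum_last] at h3
    exact h3.trans_lt hx.2

theorem eq_of_psum {m : ℕ} {x y : Fin (m + 1) → ℝ} (h : psum x = psum y) : x = y := by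
  funext j
  refine Fin.cases ?_ (fun i => ?_) j
  · rw [← psum_zero x, ← psum_zero y, h]
  · have h1 := psum_succ x i
    have h2 := psum_succ y i
    rw [h] at h1
    linarith

/-- translation attached to a word `c`, a shift `κ` and a size `s` -/
noncomputable def wvec {M : ℕ} (s κ : ℝ) (c : Fin n → Fin M) (i : Fin n) : ℝ :=
  κ + s * (((c (Tuple.sort c i) : Fin M) : ℕ) : ℝ)

/-- the alcove map of a word -/
noncomputable def walc {M : ℕ} (s κ : ℝ) (c : Fin n → Fin M) (x : Fin n → ℝ) : Fin n → ℝ :=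
  alc (Tuple.sort c) (wvec s κ c) x

theorem psum_walc {M : ℕ} (s κ : ℝ) (c : Fin n → Fin M) (x : Fin n → ℝ) (i : Fin n) :
    psum (walc s κ c x) i =
      psum x (Tuple.sort c i) + (κ + s * (((c (Tuple.sort c i) : Fin M) : ℕ) : ℝ)) :=
  psum_alc _ _ _ _

theorem walc_psum_mono {m M : ℕ} {s κ : ℝ} (c : Fin (m + 1) → Fin M)
    {x : Fin (m + 1) → ℝ} (hx : x ∈ simp0 (m + 1) s) : StrictMono (psum (walc s κ c x)) := by
  obtain ⟨h1, h2, h3⟩ := psum_simp0 hx
  have hs : 0 < s := (h1 0).trans (h3 0)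
  obtain ⟨hmon, htie⟩ := Tuple.eq_sort_iff.1 (rfl : Tuple.sort c = Tuple.sort c)
  intro i j hij
  rw [psum_walc, psum_walc]
  have h4 : c (Tuple.sort c i) ≤ c (Tuple.sort c j) := hmon hij.le
  rcases h4.lt_or_eq with h5 | h5
  · have h6 : (((c (Tuple.sort c i) : Fin M) : ℕ) : ℝ) + 1 ≤ (((c (Tuple.sort c j) : Fin M) : ℕ) : ℝ) := by
      have : ((c (Tuple.sort c i) : Fin M) : ℕ) + 1 ≤ ((c (Tuple.sort c j) : Fin M) : ℕ) := h5
      exact_mod_cast this
    have h7 := h3 (Tuple.sort c i)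
    have h8 := h1 (Tuple.sort c j)
    nlinarith
  · rw [h5]
    have := h2 (htie i j hij h5)
    linarith

theorem walc_pos {m M : ℕ} {s κ : ℝ} (hκ : 0 ≤ κ) (c : Fin (m + 1) → Fin M)
    {x : Fin (m + 1) → ℝ} (hx : x ∈ simp0 (m + 1) s) (j : Fin (m + 1)) :
    0 < walc s κ c x j := by
  apply pos_of_psum _ (walc_psum_mono c hx)
  obtain ⟨h1, h2, h3⟩ := psum_simp0 hx
  have hs : 0 < s := (h1 0).trans (h3 0)
  intro i
  rw [psum_walc]
  have := h1 (Tuple.sort c i)
  positivity

theorem walc_sum_lt {m M : ℕ} {s κ : ℝ} (c : Fin (m + 1) → Fin M)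
    {x : Fin (m + 1) → ℝ} (hx : x ∈ simp0 (m + 1) s) :
    ∑ j, walc s κ c x j < κ + s * M := by
  rw [← psum_last, psum_walc]
  obtain ⟨h1, h2, h3⟩ := psum_simp0 hx
  have hs : 0 < s := (h1 0).trans (h3 0)
  have h6 : (((c (Tuple.sort c (Fin.last m)) : Fin M) : ℕ) : ℝ) + 1 ≤ (M : ℝ) := by
    exact_mod_cast (c (Tuple.sort c (Fin.last m))).2
  have h7 := h3 (Tuple.sort c (Fin.last m))
  nlinarith

theorem walc_sum_gt {m M : ℕ} {s κ : ℝ} (c : Fin (m + 1) → Fin M) {q : ℕ}
    (hc : ∃ k, q ≤ ((c k : Fin M) : ℕ))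
    {x : Fin (m + 1) → ℝ} (hx : x ∈ simp0 (m + 1) s) :
    κ + s * q < ∑ j, walc s κ c x j := by
  obtain ⟨k, hk⟩ := hc
  rw [← psum_last]
  obtain ⟨h1, h2, h3⟩ := psum_simp0 hx
  have hs : 0 < s := (h1 0).trans (h3 0)
  have h4 : psum (walc s κ c x) ((Tuple.sort c).symm k) ≤ psum (walc s κ c x) (Fin.last m) :=
    (walc_psum_mono c hx).monotone (Fin.le_last _)
  rw [psum_walc, Equiv.apply_symm_apply] at h4
  have h5 : (q : ℝ) ≤ ((c k : Fin M) : ℕ) := by exact_mod_cast hk
  have h6 := h1 k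
  nlinarith

theorem walc_disj {m M : ℕ} {s κ : ℝ} {c c' : Fin (m + 1) → Fin M}
    {x x' : Fin (m + 1) → ℝ} (hx : x ∈ simp0 (m + 1) s) (hx' : x' ∈ simp0 (m + 1) s)
    (h : walc s κ c x = walc s κ c' x') : c = c' := by
  obtain ⟨h1, h2, h3⟩ := psum_simp0 hx
  obtain ⟨h1', h2', h3'⟩ := psum_simp0 hx'
  have hs : 0 < s := (h1 0).trans (h3 0)
  have key : ∀ i, ((c (Tuple.sort c i) : Fin M) : ℕ) = ((c' (Tuple.sort c' i) : Fin M) : ℕ) ∧
      psum x (Tuple.sort c i) = psum x' (Tuple.sort c' i) := by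
    intro i
    have h4 : psum (walc s κ c x) i = psum (walc s κ c' x') i := by rw [h]
    rw [psum_walc, psum_walc] at h4
    have e : ((c (Tuple.sort c i) : Fin M) : ℕ) = ((c' (Tuple.sort c' i) : Fin M) : ℕ) := by
      have a1 := h1 (Tuple.sort c i)
      have a2 := h3 (Tuple.sort c i)
      have a3 := h1' (Tuple.sort c' i)
      have a4 := h3' (Tuple.sort c' i)
      have b1 : s * (((c (Tuple.sort c i) : Fin M) : ℕ) : ℝ) <
          s * ((((c' (Tuple.sort c' i) : Fin M) : ℕ) : ℝ) + 1) := by linarith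
      have b2 : s * (((c' (Tuple.sort c' i) : Fin M) : ℕ) : ℝ) <
          s * ((((c (Tuple.sort c i) : Fin M) : ℕ) : ℝ) + 1) := by linarith
      have c1 := lt_of_mul_lt_mul_left b1 hs.le
      have c2 := lt_of_mul_lt_mul_left b2 hs.le
      have d1 : ((c (Tuple.sort c i) : Fin M) : ℕ) < ((c' (Tuple.sort c' i) : Fin M) : ℕ) + 1 := by
        exact_mod_cast c1
      have d2 : ((c' (Tuple.sort c' i) : Fin M) : ℕ) < ((c (Tuple.sort c i) : Fin M) : ℕ) + 1 := by
        exact_mod_cast c2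
      omega
    refine ⟨e, ?_⟩
    rw [e] at h4
    linarith
  -- the permutation comparing the two orders is strictly monotone
  have hρ : StrictMono (fun k => Tuple.sort c' ((Tuple.sort c).symm k)) := by
    intro k l hkl
    have e1 := (key ((Tuple.sort c).symm k)).2
    have e2 := (key ((Tuple.sort c).symm l)).2
    rw [Equiv.apply_symm_apply] at e1 e2
    have h5 := h2 hkl
    rw [e1, e2] at h5
    exact h2'.lt_iff_lt.1 h5
  have hid : ∀ k, Tuple.sort c' ((Tuple.sort c).symm k) = k := by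
    intro k
    have hbij : Function.Surjective (fun k => Tuple.sort c' ((Tuple.sort c).symm k)) :=
      (Tuple.sort c').surjective.comp (Tuple.sort c).symm.surjective
    have e : (hρ.orderIsoOfSurjective _ hbij) = OrderIso.refl _ := Subsingleton.elim _ _
    have := congrArg (fun f : Fin (m + 1) ≃o Fin (m + 1) => f k) e
    simpa using this
  funext k
  have e1 := (key ((Tuple.sort c).symm k)).1
  rw [Equiv.apply_symm_apply, hid k] at e1
  exact Fin.ext e1

end Vale.Agent.P209
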