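import Mathlib

/-!
Symplectic embeddings of closed balls into `ℂⁿ`, `ω₀ = ∑ dx_j ∧ dy_j`.
-/

namespace Vale.Agent.P209

open scoped ContDiff

/-- The standard symplectic form `ω₀ = ∑ dx_j ∧ dy_j` on `ℂⁿ`, `z_j = x_j + i y_j`. -/
def omega0 {n : ℕ} (u v : Fin n → ℂ) : ℝ :=
  ∑ j, ((u j).re * (v j).im - (u j).im * (v j).re)

/-- The closed ball of capacity `R` : `π ∑ |z_j|² ≤ R`. -/
def closedBallCap (n : ℕ) (R : ℝ) : Set (Fin n → ℂ) :=
  {z | Real.pi * ∑ j, ‖z j‖ ^ 2 ≤ R}

/-- The open ball of capacity `R` : `π ∑ |z_j|² < R`. -/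
def openBallCap (n : ℕ) (R : ℝ) : Set (Fin n → ℂ) :=
  {z | Real.pi * ∑ j, ‖z j‖ ^ 2 < R}

/-- `f` is a symplectic embedding of the set `K ⊆ ℂⁿ` into `ℂⁿ`: it is defined and smooth on an
open neighbourhood `U` of `K`, it is a topological embedding of `U` (injective, homeomorphic onto
its image), and it pulls `ω₀` back to `ω₀` at every point of `U`. -/
def IsSymplecticEmbedding {n : ℕ} (K : Set (Fin n → ℂ)) (f : (Fin n → ℂ) → (Fin n → ℂ)) : Prop :=
  ∃ U : Set (Fin n → ℂ), IsOpen U ∧ K ⊆ U ∧ ContDiffOn ℝ ∞ f U ∧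
    Topology.IsEmbedding (fun z : U => f z) ∧
    ∀ z ∈ U, ∀ u v : Fin n → ℂ,
      omega0 (fderiv ℝ f z u) (fderiv ℝ f z v) = omega0 u v

/-- The disjoint union of the closed balls of capacities `r i` embeds symplectically into the open
ball of capacity `R` in `ℂⁿ`: symplectic embeddings of the individual closed balls whose images are
contained in the open ball and are pairwise disjoint. -/
def BallsPack {k : ℕ} (n : ℕ) (r : Fin k → ℝ) (R : ℝ) : Prop :=
  ∃ f : Fin k → (Fin n → ℂ) → (Fin n → ℂ),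
    (∀ i, IsSymplecticEmbedding (closedBallCap n (r i)) (f i)) ∧
    (∀ i, f i '' closedBallCap n (r i) ⊆ openBallCap n R) ∧
    Pairwise fun i j =>
      Disjoint (f i '' closedBallCap n (r i)) (f j '' closedBallCap n (r j))

end Vale.Agent.P209
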