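import Vale.Agent.P209.Toric2

namespace Vale.Agent.P209

open scoped ContDiff

variable {n : ℕ}

theorem newMom_eq (A : Matrix (Fin n) (Fin n) ℤ) (b : Fin n → ℝ) (w : Fin n → ℂ) (j : Fin n) :
    newMom A b w j = ∑ i, (A j i : ℝ) * mom w i + b j := rfl

theorem mom_eq_of_newMom {A B : Matrix (Fin n) (Fin n) ℤ} (hAB : A.transpose * B = 1)
    {x y : Fin n → ℝ} (h : ∀ j, ∑ i, (A j i : ℝ) * x i = ∑ i, (A j i : ℝ) * y i) : x = y := by
  have hBA : B.transpose * A = 1 := by
    have := congrArg Matrix.transpose hAB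
    rw [Matrix.transpose_mul, Matrix.transpose_transpose, Matrix.transpose_one] at this
    exact this
  have hBA' : ∀ i k, ∑ j, (B j i : ℝ) * (A j k : ℝ) = if i = k then 1 else 0 := by
    intro i k
    have := congrFun (congrFun hBA i) k
    rw [Matrix.mul_apply, Matrix.one_apply] at this
    simp only [Matrix.transpose_apply] at this
    have h2 := congrArg (fun z : ℤ => (z : ℝ)) this
    push_cast at h2
    rw [h2]
  have key : ∀ x : Fin n → ℝ, ∀ k, ∑ j, (B j k : ℝ) * (∑ i, (A j i : ℝ) * x i) = x k := by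
    intro x k
    calc ∑ j, (B j k : ℝ) * (∑ i, (A j i : ℝ) * x i)
        = ∑ j, ∑ i, ((B j k : ℝ) * (A j i : ℝ)) * x i := by
          refine Finset.sum_congr rfl fun j _ => ?_
          rw [Finset.mul_sum]
          refine Finset.sum_congr rfl fun i _ => ?_
          ring
      _ = ∑ i, (∑ j, (B j k : ℝ) * (A j i : ℝ)) * x i := by
          rw [Finset.sum_comm]
          refine Finset.sum_congr rfl fun i _ => ?_
          rw [Finset.sum_mul]
      _ = x k := by simp [hBA']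
  funext k
  rw [← key x k, ← key y k]
  refine Finset.sum_congr rfl fun j _ => ?_
  rw [h j]

theorem prod_zpow_sum {ι : Type*} (s : Finset ι) (a : ℂ) (ha : a ≠ 0) (f : ι → ℤ) :
    ∏ i ∈ s, a ^ (f i) = a ^ (∑ i ∈ s, f i) := by
  classical
  induction s using Finset.induction_on with
  | empty => simp
  | insert i s hi ih => rw [Finset.prod_insert hi, Finset.sum_insert hi, zpow_add₀ ha, ih]

theorem mono_inv {A B : Matrix (Fin n) (Fin n) ℤ} (hAB : A.transpose * B = 1)
    {w : Fin n → ℂ} (hw : ∀ i, w i ≠ 0) (k : Fin n) :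
    ∏ j, (mono B w j) ^ (A j k) = w k := by
  have hAB' : ∀ i k, ∑ j, (A j k) * (B j i) = if k = i then 1 else 0 := by
    intro i k
    have := congrFun (congrFun hAB k) i
    rw [Matrix.mul_apply, Matrix.one_apply] at this
    simpa only [Matrix.transpose_apply] using this
  calc ∏ j, (mono B w j) ^ (A j k) = ∏ j, ∏ i, (w i) ^ (A j k * B j i) := by
        refine Finset.prod_congr rfl fun j _ => ?_
        unfold mono
        rw [← Finset.prod_zpow]
        refine Finset.prod_congr rfl fun i _ => ?_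
        rw [← zpow_mul, mul_comm]
    _ = ∏ i, (w i) ^ (∑ j, A j k * B j i) := by
        rw [Finset.prod_comm]
        refine Finset.prod_congr rfl fun i _ => ?_
        rw [prod_zpow_sum _ _ (hw i)]
    _ = w k := by
        rw [Finset.prod_eq_single k]
        · rw [hAB']; simp
        · intro i _ hi
          rw [hAB', if_neg (Ne.symm hi)]; simp
        · simp

theorem tor_inj {A B : Matrix (Fin n) (Fin n) ℤ} (hAB : A.transpose * B = 1)
    {b : Fin n → ℝ} : Set.InjOn (tor A B b) (torDom A b) := by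
  intro w hw w' hw' h
  have hm : mom w = mom w' := by
    apply mom_eq_of_newMom hAB
    intro j
    have h1 := mom_tor (B := B) hw j
    have h2 := mom_tor (B := B) hw' j
    rw [h, h2, newMom_eq, newMom_eq] at h1
    linarith
  have hnorm : ∀ i, ‖w i‖ = ‖w' i‖ := by
    intro i
    have h1 := congrFun hm i
    unfold mom at h1
    rw [sq_eq_norm, sq_eq_norm] at h1
    have h2 := mul_left_cancel₀ Real.pi_ne_zero h1
    exact (pow_left_inj₀ (norm_nonneg _) (norm_nonneg _) two_ne_zero).1 h2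
  have hmn : ∀ j, ‖mono B w j‖ = ‖mono B w' j‖ := by
    intro j
    unfold mono
    rw [norm_prod, norm_prod]
    refine Finset.prod_congr rfl fun i _ => ?_
    rw [norm_zpow, norm_zpow, hnorm]
  have hmono : ∀ j, mono B w j = mono B w' j := by
    intro j
    have h1 := congrFun h j
    unfold tor at h1
    have h2 : newMom A b w j = newMom A b w' j := by
      rw [newMom_eq, newMom_eq, hm]
    rw [h2, hmn j] at h1
    have hpos := hw'.2 j
    have hπ := Real.pi_pos
    have h3 : ((Real.sqrt (newMom A b w' j / Real.pi) : ℝ) : ℂ) ≠ 0 := by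
      have : 0 < Real.sqrt (newMom A b w' j / Real.pi) := Real.sqrt_pos.2 (by positivity)
      exact_mod_cast this.ne'
    have h4 := mul_left_cancel₀ h3 h1
    have h5 : (((‖mono B w' j‖ : ℝ) : ℂ)⁻¹) ≠ 0 := by
      apply inv_ne_zero
      simpa using mono_ne (B := B) hw'.1 j
    exact mul_left_cancel₀ h5 h4
  funext k
  rw [← mono_inv hAB hw.1 k, ← mono_inv hAB hw'.1 k]
  refine Finset.prod_congr rfl fun j _ => ?_
  rw [hmono j]

/-- The open standard simplex of size `s`. -/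
def simp0 (n : ℕ) (s : ℝ) : Set (Fin n → ℝ) := {x | (∀ i, 0 < x i) ∧ ∑ i, x i < s}

theorem exists_delta (n : ℕ) {r s : ℝ} (hrs : r < s) :
    ∃ δ : ℝ, 0 < δ ∧ r + Real.pi * (8 * δ * n * Real.sqrt (r / Real.pi) + 16 * n * δ ^ 2) < s := by
  have hcont : Filter.Tendsto
      (fun δ : ℝ => r + Real.pi * (8 * δ * n * Real.sqrt (r / Real.pi) + 16 * n * δ ^ 2))
      (nhdsWithin 0 (Set.Ioi 0)) (nhds (r + Real.pi * (8 * 0 * n * Real.sqrt (r / Real.pi)
        + 16 * n * 0 ^ 2))) := by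
    apply Filter.Tendsto.mono_left _ nhdsWithin_le_nhds
    apply Continuous.tendsto
    fun_prop
  have h0 : r + Real.pi * (8 * 0 * n * Real.sqrt (r / Real.pi) + 16 * n * 0 ^ 2) < s := by
    simpa using hrs
  have h1 := hcont.eventually_lt_const h0
  have h2 := h1.and self_mem_nhdsWithin
  obtain ⟨δ, hδ1, hδ2⟩ := h2.exists
  exact ⟨δ, hδ2, hδ1⟩

theorem norm_le_of_mem {r : ℝ} {z : Fin n → ℂ} (hz : z ∈ closedBallCap n r) (j : Fin n) :
    ‖z j‖ ≤ Real.sqrt (r / Real.pi) := by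
  apply Real.le_sqrt_of_sq_le
  rw [le_div_iff₀ Real.pi_pos]
  have h1 : ‖z j‖ ^ 2 ≤ ∑ i, ‖z i‖ ^ 2 :=
    Finset.single_le_sum (f := fun i => ‖z i‖ ^ 2) (fun i _ => by positivity) (Finset.mem_univ j)
  have h2 : Real.pi * ∑ j, ‖z j‖ ^ 2 ≤ r := hz
  nlinarith [Real.pi_pos]

theorem sum_mom (w : Fin n → ℂ) : ∑ i, mom w i = Real.pi * ∑ i, ‖w i‖ ^ 2 := by
  rw [Finset.mul_sum]
  refine Finset.sum_congr rfl fun i _ => ?_
  unfold mom
  rw [sq_eq_norm]

theorem embed_main {r s R : ℝ} (hrs : r < s)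
    {A B : Matrix (Fin n) (Fin n) ℤ} (hAB : A.transpose * B = 1) {b : Fin n → ℝ}
    (hpos : ∀ x ∈ simp0 n s, ∀ j, 0 < ∑ i, (A j i : ℝ) * x i + b j)
    (hsum : ∀ x ∈ simp0 n s, ∑ j, (∑ i, (A j i : ℝ) * x i + b j) < R) :
    ∃ f : (Fin n → ℂ) → (Fin n → ℂ), IsSymplecticEmbedding (closedBallCap n r) f ∧
      (f '' closedBallCap n r ⊆ openBallCap n R) ∧
      ∀ z ∈ closedBallCap n r, ∃ x ∈ simp0 n s, ∀ j,
        mom (f z) j = ∑ i, (A j i : ℝ) * x i + b j := by
  obtain ⟨δ, hδ, hδs⟩ := exists_delta n hrs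
  obtain ⟨N, hN⟩ := exists_nat_gt (Real.sqrt (r / Real.pi) / (2 * δ))
  have hN' : Real.sqrt (r / Real.pi) < 2 * N * δ := by
    rw [div_lt_iff₀ (by positivity)] at hN
    linarith
  set τ : ℂ → ℂ := tau δ N with hτ
  set Φ : (Fin n → ℂ) → (Fin n → ℂ) := fun z => fun j => τ (z j) with hΦ
  have hΦs : SympOn Φ Set.univ := prod_symp (tau_area δ N)
  have hΦc : Continuous Φ :=
    continuous_pi fun j => (tau_area δ N).smooth.continuous.comp (continuous_apply j)
  set U : Set (Fin n → ℂ) := {z | (∀ j, ‖z j‖ < 2 * N * δ) ∧ ∑ i, mom (Φ z) i < s} with hU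
  have hUo : IsOpen U := by
    have h1 : IsOpen {z : Fin n → ℂ | ∀ j, ‖z j‖ < 2 * N * δ} := by
      rw [Set.ofPred_forall]
      exact isOpen_iInter_of_finite fun j =>
        isOpen_lt (continuous_apply j).norm continuous_const
    have h2 : IsOpen {z : Fin n → ℂ | ∑ i, mom (Φ z) i < s} :=
      isOpen_lt (continuous_finsetSum _ fun i _ =>
        ((mom_smooth i).continuous.comp hΦc)) continuous_const
    exact h1.inter h2
  have hne : ∀ z ∈ U, ∀ j, Φ z j ≠ 0 := by
    intro z hz j h0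
    have h1 := tau_eq_zero hδ N (z j) h0
    have h2 := hz.1 j
    rw [h1, Complex.norm_real, Real.norm_eq_abs, abs_of_nonneg (by positivity)] at h2
    exact lt_irrefl _ h2
  have hmom : ∀ z ∈ U, mom (Φ z) ∈ simp0 n s := by
    intro z hz
    refine ⟨fun i => ?_, hz.2⟩
    unfold mom
    rw [sq_eq_norm]
    have := norm_pos_iff.2 (hne z hz i)
    have := Real.pi_pos
    positivity
  have hmaps : Set.MapsTo Φ U (torDom A b) := fun z hz =>
    ⟨hne z hz, fun j => hpos _ (hmom z hz) j⟩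
  have hKU : closedBallCap n r ⊆ U := by
    intro z hz
    refine ⟨fun j => (norm_le_of_mem hz j).trans_lt hN', ?_⟩
    rw [sum_mom]
    have h1 : ∀ i, ‖Φ z i‖ ^ 2 ≤ ‖z i‖ ^ 2 + (8 * δ * Real.sqrt (r / Real.pi) + 16 * δ ^ 2) := by
      intro i
      have h2 : ‖Φ z i‖ ≤ ‖z i‖ + 4 * δ := tau_B hδ N (z i)
      have h3 := norm_le_of_mem hz i
      have h4 := norm_nonneg (z i)
      have h5 := norm_nonneg (Φ z i)
      nlinarith
    have h6 : ∑ i, ‖Φ z i‖ ^ 2 ≤ ∑ i, ‖z i‖ ^ 2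
        + n * (8 * δ * Real.sqrt (r / Real.pi) + 16 * δ ^ 2) := by
      calc ∑ i, ‖Φ z i‖ ^ 2
          ≤ ∑ i, (‖z i‖ ^ 2 + (8 * δ * Real.sqrt (r / Real.pi) + 16 * δ ^ 2)) :=
            Finset.sum_le_sum fun i _ => h1 i
        _ = _ := by
            rw [Finset.sum_add_distrib]
            simp
            ring
    have h7 : Real.pi * ∑ j, ‖z j‖ ^ 2 ≤ r := hz
    have hπ := Real.pi_pos
    calc Real.pi * ∑ i, ‖Φ z i‖ ^ 2
        ≤ Real.pi * (∑ i, ‖z i‖ ^ 2 + n * (8 * δ * Real.sqrt (r / Real.pi) + 16 * δ ^ 2)) :=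
          mul_le_mul_of_nonneg_left h6 hπ.le
      _ = Real.pi * ∑ i, ‖z i‖ ^ 2 +
            Real.pi * (8 * δ * n * Real.sqrt (r / Real.pi) + 16 * n * δ ^ 2) := by ring
      _ ≤ r + Real.pi * (8 * δ * n * Real.sqrt (r / Real.pi) + 16 * n * δ ^ 2) := by linarith
      _ < s := hδs
  set f : (Fin n → ℂ) → (Fin n → ℂ) := tor A B b ∘ Φ with hf
  have hfs : SympOn f U :=
    SympOn.comp hUo (torDom_open A b) (hΦs.mono (Set.subset_univ _)) (tor_symp hAB) hmaps
  have hinj : Set.InjOn f U := by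
    intro z hz z' hz' h
    have h1 := tor_inj hAB (hmaps hz) (hmaps hz') h
    funext j
    exact tau_injective δ N (congrFun h1 j)
  refine ⟨f, ⟨U, hUo, hKU, hfs.smooth, hfs.isEmbedding hUo hinj, hfs.symp⟩, ?_, ?_⟩
  · rintro _ ⟨z, hz, rfl⟩
    have hzU := hKU hz
    show Real.pi * ∑ j, ‖f z j‖ ^ 2 < R
    rw [← sum_mom]
    have h1 : ∀ j, mom (f z) j = ∑ i, (A j i : ℝ) * mom (Φ z) i + b j := fun j =>
      mom_tor (B := B) (hmaps hzU) j
    simp only [h1]
    exact hsum _ (hmom z hzU)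
  · intro z hz
    have hzU := hKU hz
    exact ⟨mom (Φ z), hmom z hzU, fun j => mom_tor (B := B) (hmaps hzU) j⟩

end Vale.Agent.P209
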