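import Vale.Agent.P209.Main

namespace Vale.Agent.P209

open Filter Topology

theorem pack_upto {m k : ℕ} (hk : k ≤ 2 ^ (m + 1)) {r : Fin k → ℝ} {R : ℝ} (hR : 0 < R)
    (hpair : ∀ i j, i ≠ j → r i + r j < R) (hlt : ∀ i, r i < R)
    (i0 : Fin k) (hmax : ∀ i, r i ≤ r i0) : BallsPack (m + 1) r R := by
  classical
  set μ : ℝ := min (R / 2) (R - r i0) with hμ
  have hμpos : 0 < μ := lt_min (by linarith) (by linarith [hlt i0])
  have hlt' : ∀ i, i ≠ i0 → r i < μ := by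
    intro i hi
    have h1 := hpair i i0 hi
    have h2 := hmax i
    exact lt_min (by linarith) (by linarith)
  have hev : ∀ᶠ s in 𝓝[<] μ, ∀ i, i ≠ i0 → r i < s := by
    rw [Filter.eventually_all]
    intro i
    by_cases hi : i = i0
    · exact Filter.Eventually.of_forall fun s h => absurd hi h
    · filter_upwards [Ioo_mem_nhdsLT (hlt' i hi)] with s hs _
      exact hs.1
  have hev2 : ∀ᶠ s in 𝓝[<] μ, 0 < s ∧ s < μ := Ioo_mem_nhdsLT hμpos
  obtain ⟨s, hs1, hs2, hs3⟩ := (hev.and hev2).exists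
  have hs4 : s < R / 2 := hs3.trans_le (min_le_left _ _)
  have hs5 : s < R - r i0 := hs3.trans_le (min_le_right _ _)
  refine pack_general (M := 2) (κ := R - 2 * s) (s := s) (by norm_num) hs2 (by linarith)
    (by push_cast; ring) i0 ?_ 0 (fun _ => 0) (fun _ => le_rfl) (fun i hi => ?_) ?_
  · norm_num
    linarith
  · simpa using hs1 i hi
  · simp only [Nat.sub_zero, pow_zero, Finset.sum_const, smul_eq_mul, mul_one]
    rw [Finset.filter_ne' Finset.univ i0, Finset.card_erase_of_mem (Finset.mem_univ _),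
      Finset.card_univ, Fintype.card_fin]
    have : (2 - 1 : ℕ) ^ (m + 1) = 1 := by norm_num
    rw [this]
    omega

theorem exists_level {a s : ℝ} (ha : 0 < a) (has : a < s) :
    ∃ j : ℕ, a < s / 2 ^ j ∧ s / 2 ^ (j + 1) ≤ a := by
  classical
  have hex : ∃ j : ℕ, s / 2 ^ (j + 1) ≤ a := by
    obtain ⟨j, hj⟩ := pow_unbounded_of_one_lt (s / a) (one_lt_two : (1 : ℝ) < 2)
    refine ⟨j, ?_⟩
    rw [div_le_iff₀ (by positivity)]
    rw [div_lt_iff₀ ha] at hj
    have : (2 : ℝ) ^ j ≤ 2 ^ (j + 1) := pow_le_pow_right₀ (by norm_num) (Nat.le_succ j)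
    nlinarith
  refine ⟨Nat.find hex, ?_, Nat.find_spec hex⟩
  rcases Nat.eq_zero_or_pos (Nat.find hex) with h | h
  · rw [h]; simpa using has
  · have h1 := Nat.find_min hex (Nat.sub_lt h one_pos)
    rw [show Nat.find hex - 1 + 1 = Nat.find hex from Nat.sub_add_cancel h] at h1
    push Not at h1
    exact h1

theorem pack_volume {m k M : ℕ} (hM : 1 ≤ M) {r : Fin k → ℝ} {R S : ℝ} (hS : 0 < S)
    (hMS : M * S ≤ R) (hr : ∀ i, 0 < r i) (i0 : Fin k) (h0 : r i0 ≤ R - S)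
    (hlt : ∀ i, i ≠ i0 → r i < S)
    (hvol : ∑ i ∈ Finset.univ.filter (fun i => i ≠ i0), (2 * r i) ^ (m + 1) <
      ((M : ℝ) ^ (m + 1) - ((M : ℝ) - 1) ^ (m + 1)) * S ^ (m + 1)) :
    BallsPack (m + 1) r R := by
  classical
  have hev : ∀ᶠ s in 𝓝[<] S, ∀ i, i ≠ i0 → r i < s := by
    rw [Filter.eventually_all]
    intro i
    by_cases hi : i = i0
    · exact Filter.Eventually.of_forall fun s h => absurd hi h
    · filter_upwards [Ioo_mem_nhdsLT (hlt i hi)] with s hs _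
      exact hs.1
  have hev2 : ∀ᶠ s in 𝓝[<] S, 0 < s ∧ s < S := Ioo_mem_nhdsLT hS
  have hev3 : ∀ᶠ s in 𝓝[<] S, ∑ i ∈ Finset.univ.filter (fun i => i ≠ i0), (2 * r i) ^ (m + 1) <
      ((M : ℝ) ^ (m + 1) - ((M : ℝ) - 1) ^ (m + 1)) * s ^ (m + 1) := by
    have hc : Tendsto (fun s : ℝ => ((M : ℝ) ^ (m + 1) - ((M : ℝ) - 1) ^ (m + 1)) * s ^ (m + 1))
        (𝓝[<] S) (𝓝 (((M : ℝ) ^ (m + 1) - ((M : ℝ) - 1) ^ (m + 1)) * S ^ (m + 1))) := by
      apply Tendsto.mono_left _ nhdsWithin_le_nhds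
      apply Continuous.tendsto
      fun_prop
    exact hc.eventually_const_lt hvol
  obtain ⟨s, ⟨hs1, hs2, hs3⟩, hs4⟩ := ((hev.and hev2).and hev3).exists
  have hlev : ∀ i, ∃ j : ℕ, i ≠ i0 → (r i < s / 2 ^ j ∧ s / 2 ^ (j + 1) ≤ r i) := by
    intro i
    by_cases hi : i = i0
    · exact ⟨0, fun h => absurd hi h⟩
    · obtain ⟨j, hj⟩ := exists_level (hr i) (hs1 i hi)
      exact ⟨j, fun _ => hj⟩
  choose lev hlev using hlev
  set J : ℕ := Finset.univ.sup lev with hJ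
  have hMr : (1 : ℝ) ≤ M := by exact_mod_cast hM
  refine pack_general (M := M) (κ := R - s * M) (s := s) hM hs2 (by nlinarith)
    (by ring) i0 ?_ J lev (fun i => Finset.le_sup (Finset.mem_univ i))
    (fun i hi => (hlev i hi).1) ?_
  · rw [Nat.cast_sub hM]
    push_cast
    linarith
  · have hcast : ((∑ i ∈ Finset.univ.filter (fun i => i ≠ i0), (2 ^ (m + 1)) ^ (J - lev i) : ℕ) : ℝ)
        ≤ (((M ^ (m + 1) - (M - 1) ^ (m + 1)) * (2 ^ (m + 1)) ^ J : ℕ) : ℝ) := by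
      have hMsub : (((M ^ (m + 1) - (M - 1) ^ (m + 1) : ℕ)) : ℝ) =
          (M : ℝ) ^ (m + 1) - ((M : ℝ) - 1) ^ (m + 1) := by
        rw [Nat.cast_sub (Nat.pow_le_pow_left (Nat.sub_le _ _) _)]
        push_cast
        rw [Nat.cast_sub hM]
        push_cast
        ring
      rw [Nat.cast_mul, hMsub]
      push_cast
      have hterm : ∀ i ∈ Finset.univ.filter (fun i => i ≠ i0),
          ((2 : ℝ) ^ (m + 1)) ^ (J - lev i) ≤
            (2 * r i) ^ (m + 1) * (((2 : ℝ) ^ (m + 1)) ^ J / s ^ (m + 1)) := by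
        intro i hi
        rw [Finset.mem_filter] at hi
        have h1 := (hlev i hi.2).2
        have hle : lev i ≤ J := Finset.le_sup (Finset.mem_univ i)
        have h2 : s ≤ 2 * r i * 2 ^ (lev i) := by
          rw [div_le_iff₀ (by positivity)] at h1
          rw [pow_succ] at h1
          linarith
        have h3 : s ^ (m + 1) ≤ (2 * r i) ^ (m + 1) * ((2 : ℝ) ^ (m + 1)) ^ (lev i) := by
          calc s ^ (m + 1) ≤ (2 * r i * 2 ^ (lev i)) ^ (m + 1) :=
                pow_le_pow_left₀ hs2.le h2 _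
            _ = _ := by
                rw [mul_pow]
                congr 1
                rw [← pow_mul, ← pow_mul, mul_comm]
        have h4 : ((2 : ℝ) ^ (m + 1)) ^ J = ((2 : ℝ) ^ (m + 1)) ^ (J - lev i) *
            ((2 : ℝ) ^ (m + 1)) ^ (lev i) := by
          rw [← pow_add, Nat.sub_add_cancel hle]
        rw [h4, ← mul_div_assoc, le_div_iff₀ (by positivity)]
        have h5 : (0 : ℝ) < ((2 : ℝ) ^ (m + 1)) ^ (J - lev i) := by positivity
        nlinarith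
      calc ∑ i ∈ Finset.univ.filter (fun i => i ≠ i0), ((2 : ℝ) ^ (m + 1)) ^ (J - lev i)
          ≤ ∑ i ∈ Finset.univ.filter (fun i => i ≠ i0),
            (2 * r i) ^ (m + 1) * (((2 : ℝ) ^ (m + 1)) ^ J / s ^ (m + 1)) :=
            Finset.sum_le_sum hterm
        _ = (∑ i ∈ Finset.univ.filter (fun i => i ≠ i0), (2 * r i) ^ (m + 1)) *
            (((2 : ℝ) ^ (m + 1)) ^ J / s ^ (m + 1)) := by rw [Finset.sum_mul]
        _ ≤ (((M : ℝ) ^ (m + 1) - ((M : ℝ) - 1) ^ (m + 1)) * s ^ (m + 1)) *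
            (((2 : ℝ) ^ (m + 1)) ^ J / s ^ (m + 1)) :=
            mul_le_mul_of_nonneg_right hs4.le (by positivity)
        _ = ((M : ℝ) ^ (m + 1) - ((M : ℝ) - 1) ^ (m + 1)) * ((2 : ℝ) ^ (m + 1)) ^ J := by
            field_simp
    exact_mod_cast hcast

theorem mono_diff {a b h : ℝ} (ha : 0 ≤ a) (hab : a ≤ b) (hh : 0 ≤ h) (n : ℕ) :
    (a + h) ^ n - a ^ n ≤ (b + h) ^ n - b ^ n := by
  induction n with
  | zero => simp
  | succ n ih =>
    have h1 : (a + h) ^ (n + 1) - a ^ (n + 1) = (a + h) * ((a + h) ^ n - a ^ n) + h * a ^ n := by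
      ring
    have h2 : (b + h) ^ (n + 1) - b ^ (n + 1) = (b + h) * ((b + h) ^ n - b ^ n) + h * b ^ n := by
      ring
    rw [h1, h2]
    have h3 : a ^ n ≤ b ^ n := pow_le_pow_left₀ ha hab n
    have h4 : 0 ≤ (a + h) ^ n - a ^ n := by
      have := pow_le_pow_left₀ ha (by linarith : a ≤ a + h) n
      linarith
    have h5 : (a + h) * ((a + h) ^ n - a ^ n) ≤ (b + h) * ((b + h) ^ n - b ^ n) :=
      mul_le_mul (by linarith) ih h4 (by linarith)
    nlinarith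

theorem shell_ineq {R S : ℝ} {M n : ℕ} (hM : 2 ≤ M) (hS : 0 < S) (hMS : M * S ≤ R)
    (hMS' : R < (M + 1) * S) :
    (2 / 3 : ℝ) ^ n * (R ^ n - (R - S) ^ n) ≤ ((M : ℝ) ^ n - ((M : ℝ) - 1) ^ n) * S ^ n := by
  have hMr : (2 : ℝ) ≤ M := by exact_mod_cast hM
  have h1 : R ^ n - (R - S) ^ n ≤ (((M : ℝ) + 1) ^ n - (M : ℝ) ^ n) * S ^ n := by
    have := mono_diff (a := R - S) (b := M * S) (h := S) (by nlinarith) (by nlinarith) hS.le n
    have e1 : R - S + S = R := by ring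
    have e2 : (M : ℝ) * S + S = (M + 1) * S := by ring
    rw [e1, e2, mul_pow, mul_pow] at this
    linarith
  have h2 : (2 / 3 : ℝ) ^ n * (((M : ℝ) + 1) ^ n - (M : ℝ) ^ n) ≤
      (M : ℝ) ^ n - ((M : ℝ) - 1) ^ n := by
    have h3 := mono_diff (a := 2 * M) (b := 3 * M - 2) (h := 2) (by positivity) (by linarith)
      (by norm_num) n
    have h4 : (3 * (M : ℝ) - 3) ^ n ≤ (3 * (M : ℝ) - 2) ^ n :=
      pow_le_pow_left₀ (by linarith) (by linarith) n
    have e1 : 3 * (M : ℝ) - 2 + 2 = 3 * M := by ring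
    rw [e1] at h3
    have h5 : (2 * (M : ℝ) + 2) ^ n - (2 * M) ^ n ≤ (3 * (M : ℝ)) ^ n - (3 * M - 3) ^ n := by
      linarith
    have e2 : (2 * (M : ℝ) + 2) ^ n - (2 * M) ^ n = 2 ^ n * (((M : ℝ) + 1) ^ n - (M : ℝ) ^ n) := by
      have : (2 * (M : ℝ) + 2) = 2 * (M + 1) := by ring
      rw [this, mul_pow, mul_pow]; ring
    have e3 : (3 * (M : ℝ)) ^ n - (3 * M - 3) ^ n = 3 ^ n * ((M : ℝ) ^ n - ((M : ℝ) - 1) ^ n) := by
      have : (3 * (M : ℝ) - 3) = 3 * (M - 1) := by ring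
      rw [this, mul_pow, mul_pow]; ring
    rw [e2, e3] at h5
    rw [div_pow, div_mul_eq_mul_div, div_le_iff₀ (by positivity)]
    linarith
  have h6 : (0 : ℝ) < S ^ n := by positivity
  calc (2 / 3 : ℝ) ^ n * (R ^ n - (R - S) ^ n)
      ≤ (2 / 3 : ℝ) ^ n * ((((M : ℝ) + 1) ^ n - (M : ℝ) ^ n) * S ^ n) :=
        mul_le_mul_of_nonneg_left h1 (by positivity)
    _ = ((2 / 3 : ℝ) ^ n * (((M : ℝ) + 1) ^ n - (M : ℝ) ^ n)) * S ^ n := by ring
    _ ≤ ((M : ℝ) ^ n - ((M : ℝ) - 1) ^ n) * S ^ n := mul_le_mul_of_nonneg_right h2 h6.le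

theorem four_thirds {n : ℕ} (hn : 2 ≤ n) : (4 / 3 : ℝ) ^ n ≤ 2 ^ n - 1 := by
  induction n, hn using Nat.le_induction with
  | base => norm_num
  | succ n hn ih =>
    rw [pow_succ, pow_succ]
    have : (1 : ℝ) ≤ 2 ^ n := one_le_pow₀ (by norm_num)
    linarith

theorem pack_all {m k : ℕ} (hm : 1 ≤ m) {r : Fin k → ℝ} {R : ℝ} (hR : 0 < R)
    (hr : ∀ i, 0 < r i) (hpair : ∀ i j, i ≠ j → r i + r j < R) (hlt : ∀ i, r i < R)
    (i0 : Fin k) (hmax : ∀ i, r i ≤ r i0)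
    (hvol : 3 ^ (m + 1) * ∑ i ∈ Finset.univ.filter (fun i => i ≠ i0), r i ^ (m + 1) <
      R ^ (m + 1) - r i0 ^ (m + 1)) : BallsPack (m + 1) r R := by
  have hvol2 : ∑ i ∈ Finset.univ.filter (fun i => i ≠ i0), (2 * r i) ^ (m + 1) <
      (2 / 3 : ℝ) ^ (m + 1) * (R ^ (m + 1) - r i0 ^ (m + 1)) := by
    have e : ∑ i ∈ Finset.univ.filter (fun i => i ≠ i0), (2 * r i) ^ (m + 1) =
        2 ^ (m + 1) * ∑ i ∈ Finset.univ.filter (fun i => i ≠ i0), r i ^ (m + 1) := by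
      rw [Finset.mul_sum]
      refine Finset.sum_congr rfl fun i _ => ?_
      rw [mul_pow]
    rw [e, div_pow, div_mul_eq_mul_div, lt_div_iff₀ (by positivity)]
    have h2 : (0 : ℝ) < 2 ^ (m + 1) := by positivity
    nlinarith
  rcases lt_or_ge (r i0) (R / 2) with h | h
  · -- all balls smaller than `R/2`
    refine pack_volume (M := 2) (S := R / 2) (by norm_num) (by linarith)
      (by push_cast; linarith) hr i0 (by linarith) (fun i hi => ?_) ?_
    · have := hpair i i0 hi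
      have := hmax i
      linarith
    · have h4 := four_thirds (n := m + 1) (by omega)
      have h5 : (0 : ℝ) < r i0 ^ (m + 1) := pow_pos (hr i0) _
      have h6 : (0 : ℝ) < (2 / 3 : ℝ) ^ (m + 1) := by positivity
      have h7 : (2 / 3 : ℝ) ^ (m + 1) * R ^ (m + 1) = (4 / 3 : ℝ) ^ (m + 1) * (R / 2) ^ (m + 1) := by
        rw [← mul_pow, ← mul_pow]; congr 1; ring
      have h8 : (0 : ℝ) < (R / 2) ^ (m + 1) := by positivity
      norm_num
      calc ∑ i ∈ Finset.univ.filter (fun i => i ≠ i0), (2 * r i) ^ (m + 1)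
          < (2 / 3 : ℝ) ^ (m + 1) * (R ^ (m + 1) - r i0 ^ (m + 1)) := hvol2
        _ ≤ (2 / 3 : ℝ) ^ (m + 1) * R ^ (m + 1) := by nlinarith
        _ = (4 / 3 : ℝ) ^ (m + 1) * (R / 2) ^ (m + 1) := h7
        _ ≤ (2 ^ (m + 1) - 1) * (R / 2) ^ (m + 1) := mul_le_mul_of_nonneg_right h4 h8.le
  · set S : ℝ := R - r i0 with hS
    have hSpos : 0 < S := by linarith [hlt i0]
    have hρ : 2 ≤ R / S := by
      rw [le_div_iff₀ hSpos]; linarith
    set M : ℕ := ⌊R / S⌋₊ with hM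
    have hM2 : 2 ≤ M := by
      rw [hM]
      exact Nat.le_floor (by exact_mod_cast hρ)
    have hMS : (M : ℝ) * S ≤ R := by
      rw [← le_div_iff₀ hSpos]
      exact Nat.floor_le (by linarith)
    have hMS' : R < ((M : ℝ) + 1) * S := by
      rw [← div_lt_iff₀ hSpos]
      exact Nat.lt_floor_add_one _
    refine pack_volume (M := M) (S := S) (by omega) hSpos hMS hr i0
      (by linarith) (fun i hi => ?_) ?_
    · have := hpair i i0 hi
      linarith
    · have h9 := shell_ineq (n := m + 1) hM2 hSpos hMS hMS'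
      have e : R - S = r i0 := by rw [hS]; ring
      rw [e] at h9
      exact hvol2.trans_le h9

end Vale.Agent.P209
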