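import Vale.Agent.P209.Alcove

namespace Vale.Agent.P209

variable {n : ℕ}

/-- A unimodular integral simplex in `ℝⁿ`. -/
structure Node (n : ℕ) where
  A : Matrix (Fin n) (Fin n) ℤ
  B : Matrix (Fin n) (Fin n) ℤ
  hAB : A.transpose * B = 1
  b : Fin n → ℝ
  s : ℝ

/-- the affine map -/
def Node.map (ν : Node n) (x : Fin n → ℝ) (j : Fin n) : ℝ :=
  ∑ i, ((ν.A j i : ℤ) : ℝ) * x i + ν.b j

/-- the open simplex -/
def Node.T (ν : Node n) : Set (Fin n → ℝ) := ν.map '' simp0 n ν.s

theorem Node.map_inj (ν : Node n) : Function.Injective ν.map := by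
  intro x y h
  apply mom_eq_of_newMom ν.hAB
  intro j
  have := congrFun h j
  unfold Node.map at this
  linarith

/-- the `2ⁿ` children of a simplex -/
noncomputable def Node.child (ν : Node n) (c : Fin n → Fin 2) : Node n where
  A := ν.A * alcA (Tuple.sort c)
  B := ν.B * alcB (Tuple.sort c)
  hAB := by
    rw [Matrix.transpose_mul, Matrix.mul_assoc, ← Matrix.mul_assoc ν.A.transpose, ν.hAB,
      Matrix.one_mul, alc_AB]
  b := fun j => ∑ i, ((ν.A j i : ℤ) : ℝ) * tvec (wvec (ν.s / 2) 0 c) i + ν.b j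
  s := ν.s / 2

theorem Node.child_map (ν : Node n) (c : Fin n → Fin 2) (x : Fin n → ℝ) :
    (ν.child c).map x = ν.map (walc (ν.s / 2) 0 c x) := by
  funext j
  unfold Node.map Node.child walc alc
  simp only []
  have h1 : ∀ k, (((ν.A * alcA (Tuple.sort c)) j k : ℤ) : ℝ) =
      ∑ i, ((ν.A j i : ℤ) : ℝ) * ((alcA (Tuple.sort c) i k : ℤ) : ℝ) := by
    intro k
    rw [Matrix.mul_apply]
    push_cast
    rfl
  simp only [h1]
  have h2 : ∑ k, (∑ i, ((ν.A j i : ℤ) : ℝ) * ((alcA (Tuple.sort c) i k : ℤ) : ℝ)) * x k =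
      ∑ i, ((ν.A j i : ℤ) : ℝ) * ∑ k, ((alcA (Tuple.sort c) i k : ℤ) : ℝ) * x k := by
    simp only [Finset.sum_mul, Finset.mul_sum]
    rw [Finset.sum_comm]
    refine Finset.sum_congr rfl fun i _ => Finset.sum_congr rfl fun k _ => ?_
    ring
  rw [h2]
  simp only [mul_add, Finset.sum_add_distrib]
  ring

theorem simp0_pos {m : ℕ} {s : ℝ} {x : Fin (m + 1) → ℝ} (hx : x ∈ simp0 (m + 1) s) : 0 < s := by
  obtain ⟨h1, h2, h3⟩ := psum_simp0 hx
  exact (h1 0).trans (h3 0)

theorem Node.child_sub {m : ℕ} (ν : Node (m + 1)) (c : Fin (m + 1) → Fin 2) :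
    (ν.child c).T ⊆ ν.T := by
  rintro _ ⟨x, hx, rfl⟩
  have hx' : x ∈ simp0 (m + 1) (ν.s / 2) := hx
  refine ⟨walc (ν.s / 2) 0 c x, ⟨fun j => walc_pos le_rfl c hx' j, ?_⟩, (ν.child_map c x).symm⟩
  have := walc_sum_lt (κ := 0) c hx'
  push_cast at this
  linarith

theorem Node.child_disj {m : ℕ} (ν : Node (m + 1)) {c c' : Fin (m + 1) → Fin 2} (h : c ≠ c') :
    Disjoint (ν.child c).T (ν.child c').T := by
  rw [Set.disjoint_left]
  rintro _ ⟨x, hx, rfl⟩ ⟨x', hx', h'⟩
  rw [Node.child_map, Node.child_map] at h'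
  exact h (walc_disj hx hx' (ν.map_inj h').symm)

theorem kraft {m : ℕ} (J : ℕ) : ∀ (I : Type) [Fintype I] (lev : I → ℕ) (_ : ∀ i, lev i ≤ J)
    (N : ℕ) (root : Fin N → Node (m + 1)) (s : ℝ) (_ : ∀ a, (root a).s = s)
    (_ : Pairwise fun a b => Disjoint (root a).T (root b).T)
    (_ : ∑ i, (2 ^ (m + 1)) ^ (J - lev i) ≤ N * (2 ^ (m + 1)) ^ J),
    ∃ node : I → Node (m + 1), (∀ i, (node i).s = s / 2 ^ (lev i)) ∧
      (∀ i, ∃ a, (node i).T ⊆ (root a).T) ∧
      Pairwise fun i j => Disjoint (node i).T (node j).T := by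
  classical
  induction J with
  | zero =>
    intro I _ lev hlev N root s hs hdis hsum
    have hcard : Fintype.card I ≤ N := by simpa using hsum
    let e : I ↪ Fin N := (Fintype.equivFin I).toEmbedding.trans (Fin.castLEEmb hcard)
    refine ⟨fun i => root (e i), fun i => ?_, fun i => ⟨e i, subset_rfl⟩, fun i j hij => ?_⟩
    · rw [hs, Nat.le_zero.1 (hlev i)]; simp
    · exact hdis (fun h => hij (e.injective h))
  | succ J ih =>
    intro I _ lev hlev N root s hs hdis hsum
    set D : ℕ := 2 ^ (m + 1) with hD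
    have hDpos : 0 < D := by positivity
    set mm : ℕ := Fintype.card {i : I // ¬ lev i ≤ J} with hmm
    set S0 : ℕ := ∑ i : {i : I // lev i ≤ J}, D ^ (J - lev i.1) with hS0
    have hsplit : D * S0 + mm ≤ D * (N * D ^ J) := by
      have e1 : ∑ i, D ^ (J + 1 - lev i) = ∑ i : {i : I // lev i ≤ J}, D ^ (J + 1 - lev i.1)
          + ∑ i : {i : I // ¬ lev i ≤ J}, D ^ (J + 1 - lev i.1) := by
        rw [← Fintype.sum_subtype_add_sum_subtype (fun i => lev i ≤ J)]
      have e2 : ∑ i : {i : I // lev i ≤ J}, D ^ (J + 1 - lev i.1) = D * S0 := by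
        rw [hS0, Finset.mul_sum]
        refine Finset.sum_congr rfl fun i _ => ?_
        have h1 : lev i.1 ≤ J := i.2
        rw [Nat.succ_sub h1, pow_succ, mul_comm]
      have e3 : ∑ i : {i : I // ¬ lev i ≤ J}, D ^ (J + 1 - lev i.1) = mm := by
        have h1 : ∀ i : {i : I // ¬ lev i ≤ J}, D ^ (J + 1 - lev i.1) = 1 := by
          intro i
          have h2 : lev i.1 ≤ J + 1 := hlev i.1
          have h3 : ¬ lev i.1 ≤ J := i.2
          have h4 : J + 1 - lev i.1 = 0 := by omega
          rw [h4, pow_zero]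
        simp [h1, hmm]
      rw [e1, e2, e3] at hsum
      calc D * S0 + mm ≤ N * D ^ (J + 1) := hsum
        _ = D * (N * D ^ J) := by ring
    set q : ℕ := (mm + D - 1) / D with hq
    have hq1 : mm ≤ q * D := by
      have := Nat.div_add_mod (mm + D - 1) D
      have h2 := Nat.mod_lt (mm + D - 1) hDpos
      rw [← hq] at this
      have h3 : q * D = D * q := mul_comm _ _
      omega
    have hq2 : S0 + q ≤ N * D ^ J := by
      have h1 : D * S0 ≤ D * (N * D ^ J) := by omega
      have h2 : S0 ≤ N * D ^ J := Nat.le_of_mul_le_mul_left h1 hDpos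
      obtain ⟨X, hX⟩ := Nat.exists_eq_add_of_le h2
      have h3 : mm ≤ D * X := by
        rw [hX, mul_add] at hsplit
        omega
      have h4 : q ≤ X := by
        rw [hq]
        apply Nat.le_of_lt_succ
        rw [Nat.div_lt_iff_lt_mul hDpos]
        have : (X.succ) * D = D * X + D := by rw [Nat.succ_mul, mul_comm]
        omega
      omega
    -- new items
    obtain ⟨node', hn1, hn2, hn3⟩ := ih ({i : I // lev i ≤ J} ⊕ Fin q)
      (Sum.elim (fun i => lev i.1) (fun _ => J))
      (by rintro (i | i); exacts [i.2, le_rfl]) N root s hs hdis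
      (by
        rw [Fintype.sum_sum_type]
        simp only [Sum.elim_inl, Sum.elim_inr, Nat.sub_self, pow_zero, Finset.sum_const,
          Finset.card_univ, Fintype.card_fin, smul_eq_mul, mul_one]
        exact hq2)
    have hcard : Fintype.card {i : I // ¬ lev i ≤ J} ≤
        Fintype.card (Fin q × (Fin (m + 1) → Fin 2)) := by
      simp only [Fintype.card_prod, Fintype.card_fin, Fintype.card_fun]
      exact hq1
    obtain ⟨e⟩ := Function.Embedding.nonempty_of_card_le hcard
    let node : I → Node (m + 1) := fun i =>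
      if h : lev i ≤ J then node' (Sum.inl ⟨i, h⟩)
      else (node' (Sum.inr (e ⟨i, h⟩).1)).child (e ⟨i, h⟩).2
    have hnode1 : ∀ i (h : lev i ≤ J), node i = node' (Sum.inl ⟨i, h⟩) := by
      intro i h; simp only [node, dif_pos h]
    have hnode2 : ∀ i (h : ¬ lev i ≤ J),
        node i = (node' (Sum.inr (e ⟨i, h⟩).1)).child (e ⟨i, h⟩).2 := by
      intro i h; simp only [node, dif_neg h]
    refine ⟨node, fun i => ?_, fun i => ?_, fun i j hij => ?_⟩
    · by_cases h : lev i ≤ J
      · rw [hnode1 i h, hn1]; rfl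
      · rw [hnode2 i h]
        show (node' (Sum.inr (e ⟨i, h⟩).1)).s / 2 = _
        rw [hn1]
        have h2 : lev i ≤ J + 1 := hlev i
        have h3 : lev i = J + 1 := by omega
        rw [h3]
        simp only [Sum.elim_inr]
        rw [pow_succ]
        field_simp
    · by_cases h : lev i ≤ J
      · rw [hnode1 i h]; exact hn2 _
      · rw [hnode2 i h]
        obtain ⟨a, ha⟩ := hn2 (Sum.inr (e ⟨i, h⟩).1)
        exact ⟨a, (Node.child_sub _ _).trans ha⟩
    · show Disjoint (node i).T (node j).T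
      by_cases hi : lev i ≤ J <;> by_cases hj : lev j ≤ J
      · rw [hnode1 i hi, hnode1 j hj]
        apply hn3
        intro h
        apply hij
        have := Sum.inl.inj h
        exact congrArg Subtype.val this
      · rw [hnode1 i hi, hnode2 j hj]
        have h1 : Disjoint (node' (Sum.inl ⟨i, hi⟩)).T (node' (Sum.inr (e ⟨j, hj⟩).1)).T :=
          hn3 (by simp)
        exact h1.mono_right (Node.child_sub _ _)
      · rw [hnode2 i hi, hnode1 j hj]
        have h1 : Disjoint (node' (Sum.inr (e ⟨i, hi⟩).1)).T (node' (Sum.inl ⟨j, hj⟩)).T :=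
          hn3 (by simp)
        exact h1.mono_left (Node.child_sub _ _)
      · rw [hnode2 i hi, hnode2 j hj]
        by_cases h1 : (e ⟨i, hi⟩).1 = (e ⟨j, hj⟩).1
        · have h2 : (e ⟨i, hi⟩).2 ≠ (e ⟨j, hj⟩).2 := by
            intro h2
            apply hij
            have h3 : e ⟨i, hi⟩ = e ⟨j, hj⟩ := Prod.ext h1 h2
            exact congrArg Subtype.val (e.injective h3)
          rw [h1]
          exact Node.child_disj _ h2
        · have h2 : Disjoint (node' (Sum.inr (e ⟨i, hi⟩).1)).T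
              (node' (Sum.inr (e ⟨j, hj⟩).1)).T :=
            hn3 (fun h => h1 (Sum.inr.inj h))
          exact (h2.mono_left (Node.child_sub _ _)).mono_right (Node.child_sub _ _)

/-- root simplex of a word -/
noncomputable def wroot {M : ℕ} (s κ : ℝ) (c : Fin n → Fin M) : Node n where
  A := alcA (Tuple.sort c)
  B := alcB (Tuple.sort c)
  hAB := alc_AB _
  b := tvec (wvec s κ c)
  s := s

theorem wroot_map {M : ℕ} (s κ : ℝ) (c : Fin n → Fin M) (x : Fin n → ℝ) :
    (wroot s κ c).map x = walc s κ c x := rfl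

theorem card_words (n M : ℕ) (hM : 1 ≤ M) :
    Fintype.card {c : Fin n → Fin M // ∃ k, M - 1 ≤ ((c k : Fin M) : ℕ)} =
      M ^ n - (M - 1) ^ n := by
  classical
  have h1 : Fintype.card {c : Fin n → Fin M // ¬ ∃ k, M - 1 ≤ ((c k : Fin M) : ℕ)} =
      (M - 1) ^ n := by
    have e : {c : Fin n → Fin M // ¬ ∃ k, M - 1 ≤ ((c k : Fin M) : ℕ)} ≃ (Fin n → Fin (M - 1)) :=
      { toFun := fun c k => ⟨(c.1 k : ℕ), by
          have := c.2
          push Not at this
          exact this k⟩
        invFun := fun d => ⟨fun k => ⟨(d k : ℕ), by have := (d k).2; omega⟩, by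
          push Not
          intro k
          exact (d k).2⟩
        left_inv := fun c => by
          apply Subtype.ext; funext k; rfl
        right_inv := fun d => by
          funext k; rfl }
    rw [Fintype.card_congr e]
    simp
  have h2 := Fintype.card_subtype_compl (fun c : Fin n → Fin M => ∃ k, M - 1 ≤ ((c k : Fin M) : ℕ))
  have h3 : Fintype.card (Fin n → Fin M) = M ^ n := by simp
  have h4 : Fintype.card {c : Fin n → Fin M // ∃ k, M - 1 ≤ ((c k : Fin M) : ℕ)} ≤
      Fintype.card (Fin n → Fin M) := Fintype.card_subtype_le _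
  rw [h1, h3] at h2
  rw [h3] at h4
  omega

end Vale.Agent.P209
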