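import Vale.Agent.P209.Kraft

namespace Vale.Agent.P209

open scoped ContDiff

/-- Packing from a family of disjoint unimodular simplices. -/
theorem pack_of_nodes {n k : ℕ} {r : Fin k → ℝ} {R : ℝ} (node : Fin k → Node n)
    (hsize : ∀ i, r i < (node i).s)
    (hpos : ∀ i, ∀ y ∈ (node i).T, ∀ j, 0 < y j)
    (hsum : ∀ i, ∀ y ∈ (node i).T, ∑ j, y j < R)
    (hdis : Pairwise fun i j => Disjoint (node i).T (node j).T) :
    BallsPack n r R := by
  have h : ∀ i, ∃ f : (Fin n → ℂ) → (Fin n → ℂ), IsSymplecticEmbedding (closedBallCap n (r i)) f ∧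
      (f '' closedBallCap n (r i) ⊆ openBallCap n R) ∧
      ∀ z ∈ closedBallCap n (r i), mom (f z) ∈ (node i).T := by
    intro i
    obtain ⟨f, h1, h2, h3⟩ := embed_main (R := R) (hsize i) (node i).hAB (b := (node i).b)
      (fun x hx j => hpos i _ ⟨x, hx, rfl⟩ j)
      (fun x hx => hsum i _ ⟨x, hx, rfl⟩)
    refine ⟨f, h1, h2, fun z hz => ?_⟩
    obtain ⟨x, hx, hx'⟩ := h3 z hz
    exact ⟨x, hx, (funext hx').symm⟩
  choose f h1 h2 h3 using h
  refine ⟨f, h1, h2, fun i j hij => ?_⟩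
  show Disjoint (f i '' closedBallCap n (r i)) (f j '' closedBallCap n (r j))
  rw [Set.disjoint_left]
  rintro _ ⟨z, hz, rfl⟩ ⟨z', hz', h'⟩
  have e1 := h3 i z hz
  have e2 := h3 j z' hz'
  rw [h'] at e2
  exact Set.disjoint_left.1 (hdis hij) e1 e2

/-- the corner simplex -/
noncomputable def corner (n : ℕ) (s : ℝ) : Node n where
  A := 1
  B := 1
  hAB := by simp
  b := 0
  s := s

theorem corner_map {n : ℕ} (s : ℝ) (x : Fin n → ℝ) : (corner n s).map x = x := by
  funext j
  simp [Node.map, corner, Matrix.one_apply]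

/-- General packing statement: one ball in the corner, the others placed in the shell. -/
theorem pack_general {m k M : ℕ} (hM : 1 ≤ M) {r : Fin k → ℝ} {R s κ : ℝ} (hs : 0 < s)
    (hκ : 0 ≤ κ) (hR : R = κ + s * M) (i0 : Fin k) (h0 : r i0 < κ + s * (M - 1 : ℕ))
    (J : ℕ) (lev : Fin k → ℕ) (hlev : ∀ i, lev i ≤ J)
    (hr : ∀ i, i ≠ i0 → r i < s / 2 ^ (lev i))
    (hsum : ∑ i ∈ Finset.univ.filter (fun i => i ≠ i0), (2 ^ (m + 1)) ^ (J - lev i) ≤
      (M ^ (m + 1) - (M - 1) ^ (m + 1)) * (2 ^ (m + 1)) ^ J) :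
    BallsPack (m + 1) r R := by
  classical
  set N : ℕ := M ^ (m + 1) - (M - 1) ^ (m + 1) with hN
  have hcard := card_words (m + 1) M hM
  rw [← hN] at hcard
  let e := (Fintype.equivFinOfCardEq hcard)
  let root : Fin N → Node (m + 1) := fun a => wroot s κ (e.symm a).1
  obtain ⟨node', hn1, hn2, hn3⟩ := kraft J {i : Fin k // i ≠ i0} (fun i => lev i.1)
    (fun i => hlev i.1) N root s (fun a => rfl)
    (by
      intro a b hab
      show Disjoint (root a).T (root b).T
      rw [Set.disjoint_left]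
      rintro _ ⟨x, hx, rfl⟩ ⟨x', hx', h'⟩
      have h1 : walc s κ (e.symm a).1 x = walc s κ (e.symm b).1 x' := h'.symm
      have h2 := walc_disj hx hx' h1
      exact hab (e.symm.injective (Subtype.ext h2)))
    (by
      rw [← Finset.sum_subtype (Finset.univ.filter (fun i => i ≠ i0)) (p := fun i => i ≠ i0)
        (by simp) (fun i => (2 ^ (m + 1)) ^ (J - lev i))]
      exact hsum)
  -- properties of the points of root simplices
  have hroot : ∀ a, ∀ y ∈ (root a).T, (∀ j, 0 < y j) ∧ κ + s * (M - 1 : ℕ) < ∑ j, y j ∧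
      ∑ j, y j < R := by
    rintro a _ ⟨x, hx, rfl⟩
    have hx' : x ∈ simp0 (m + 1) s := hx
    have e1 : (root a).map x = walc s κ (e.symm a).1 x := rfl
    rw [e1, hR]
    exact ⟨fun j => walc_pos hκ _ hx' j, walc_sum_gt _ (e.symm a).2 hx', walc_sum_lt _ hx'⟩
  have hcorner : ∀ y ∈ (corner (m + 1) (κ + s * (M - 1 : ℕ))).T, (∀ j, 0 < y j) ∧
      ∑ j, y j < κ + s * (M - 1 : ℕ) := by
    rintro _ ⟨x, hx, rfl⟩
    rw [corner_map]
    exact hx
  have hle : κ + s * (M - 1 : ℕ) ≤ R := by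
    rw [hR]
    have : ((M - 1 : ℕ) : ℝ) ≤ M := by exact_mod_cast Nat.sub_le M 1
    nlinarith
  let node : Fin k → Node (m + 1) := fun i =>
    if h : i = i0 then corner (m + 1) (κ + s * (M - 1 : ℕ)) else node' ⟨i, h⟩
  have hnode1 : node i0 = corner (m + 1) (κ + s * (M - 1 : ℕ)) := by
    simp [node]
  have hnode2 : ∀ i (h : i ≠ i0), node i = node' ⟨i, h⟩ := by
    intro i h; simp only [node, dif_neg h]
  have hpt : ∀ i (h : i ≠ i0), ∀ y ∈ (node' ⟨i, h⟩).T, (∀ j, 0 < y j) ∧
      κ + s * (M - 1 : ℕ) < ∑ j, y j ∧ ∑ j, y j < R := by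
    intro i h y hy
    obtain ⟨a, ha⟩ := hn2 ⟨i, h⟩
    exact hroot a y (ha hy)
  apply pack_of_nodes node
  · intro i
    by_cases h : i = i0
    · rw [h, hnode1]; exact h0
    · rw [hnode2 i h, hn1]; exact hr i h
  · intro i y hy
    by_cases h : i = i0
    · rw [h, hnode1] at hy; exact (hcorner y hy).1
    · rw [hnode2 i h] at hy; exact (hpt i h y hy).1
  · intro i y hy
    by_cases h : i = i0
    · rw [h, hnode1] at hy; exact (hcorner y hy).2.trans_le hle
    · rw [hnode2 i h] at hy; exact (hpt i h y hy).2.2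
  · intro i j hij
    show Disjoint (node i).T (node j).T
    by_cases hi : i = i0
    · have hj : j ≠ i0 := fun h => hij (hi.trans h.symm)
      rw [hi, hnode1, hnode2 j hj, Set.disjoint_left]
      intro y hy hy'
      exact absurd (hcorner y hy).2 (not_lt.2 (hpt j hj y hy').2.1.le)
    · by_cases hj : j = i0
      · rw [hj, hnode1, hnode2 i hi, Set.disjoint_left]
        intro y hy hy'
        exact absurd (hcorner y hy').2 (not_lt.2 (hpt i hi y hy).2.1.le)
      · rw [hnode2 i hi, hnode2 j hj]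
        exact hn3 (fun h => hij (congrArg Subtype.val h))

end Vale.Agent.P209
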