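import Vale.Agent.P209.Defs

namespace Vale.Agent.P209

open scoped ContDiff

/-- smooth and symplectic on a set -/
structure SympOn {n : ℕ} (f : (Fin n → ℂ) → (Fin n → ℂ)) (U : Set (Fin n → ℂ)) : Prop where
  smooth : ContDiffOn ℝ ∞ f U
  symp : ∀ z ∈ U, ∀ u v : Fin n → ℂ,
      omega0 (fderiv ℝ f z u) (fderiv ℝ f z v) = omega0 u v

theorem SympOn.mono {n : ℕ} {f : (Fin n → ℂ) → (Fin n → ℂ)} {U V : Set (Fin n → ℂ)}
    (h : SympOn f U) (hVU : V ⊆ U) : SympOn f V :=
  ⟨h.smooth.mono hVU, fun z hz => h.symp z (hVU hz)⟩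

theorem SympOn.comp {n : ℕ} {f g : (Fin n → ℂ) → (Fin n → ℂ)} {U V : Set (Fin n → ℂ)}
    (hU : IsOpen U) (hV : IsOpen V) (hf : SympOn f U) (hg : SympOn g V)
    (hm : Set.MapsTo f U V) : SympOn (g ∘ f) U := by
  refine ⟨hg.smooth.comp hf.smooth hm, fun z hz u v => ?_⟩
  have h1 : DifferentiableAt ℝ f z :=
    (hf.smooth.contDiffAt (hU.mem_nhds hz)).differentiableAt (by simp)
  have h2 : DifferentiableAt ℝ g (f z) :=
    (hg.smooth.contDiffAt (hV.mem_nhds (hm hz))).differentiableAt (by simp)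
  rw [fderiv_comp z h2 h1]
  simp only [ContinuousLinearMap.comp_apply]
  rw [hg.symp (f z) (hm hz), hf.symp z hz]

theorem omega0_self_I {n : ℕ} (u : Fin n → ℂ) :
    omega0 u (fun j => Complex.I * u j) = ∑ j, ((u j).re ^ 2 + (u j).im ^ 2) := by
  unfold omega0
  refine Finset.sum_congr rfl fun j _ => ?_
  simp
  ring

theorem eq_zero_of_omega0 {n : ℕ} (u : Fin n → ℂ) (h : ∀ v, omega0 u v = 0) : u = 0 := by
  have h1 := h (fun j => Complex.I * u j)
  rw [omega0_self_I] at h1
  rw [Finset.sum_eq_zero_iff_of_nonneg (fun j _ => by positivity)] at h1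
  funext j
  have h2 := h1 j (Finset.mem_univ j)
  have h3 : (u j).re = 0 := by nlinarith [sq_nonneg (u j).re, sq_nonneg (u j).im]
  have h4 : (u j).im = 0 := by nlinarith [sq_nonneg (u j).re, sq_nonneg (u j).im]
  exact Complex.ext h3 h4

theorem omega0_zero_left {n : ℕ} (v : Fin n → ℂ) : omega0 (0 : Fin n → ℂ) v = 0 := by
  simp [omega0]

theorem SympOn.fderiv_injective {n : ℕ} {f : (Fin n → ℂ) → (Fin n → ℂ)} {U : Set (Fin n → ℂ)}
    (hf : SympOn f U) {z : Fin n → ℂ} (hz : z ∈ U) : Function.Injective (fderiv ℝ f z) := by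
  rw [injective_iff_map_eq_zero]
  intro u hu
  apply eq_zero_of_omega0
  intro v
  rw [← hf.symp z hz u v, hu, omega0_zero_left]

theorem SympOn.isEmbedding {n : ℕ} {f : (Fin n → ℂ) → (Fin n → ℂ)} {U : Set (Fin n → ℂ)}
    (hU : IsOpen U) (hf : SympOn f U) (hinj : Set.InjOn f U) :
    Topology.IsEmbedding (fun z : U => f z) := by
  have hcont : Continuous (fun z : U => f z) :=
    continuousOn_iff_continuous_domRestrict.1 hf.smooth.continuousOn
  have hopen : IsOpenMap (fun z : U => f z) := by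
    rw [isOpenMap_iff_nhds_le]
    rintro ⟨z, hz⟩
    have hcd : ContDiffAt ℝ ∞ f z := hf.smooth.contDiffAt (hU.mem_nhds hz)
    have hinjD := hf.fderiv_injective hz
    have hbij : Function.Bijective (fderiv ℝ f z) :=
      ⟨hinjD, (LinearMap.injective_iff_surjective (f := (fderiv ℝ f z).toLinearMap)).1 hinjD⟩
    have hstrict : HasStrictFDerivAt f (fderiv ℝ f z) z := hcd.hasStrictFDerivAt (by simp)
    have hsurj : (fderiv ℝ f z).range = ⊤ := LinearMap.range_eq_top.2 hbij.2
    have hmap : Filter.map f (nhds z) = nhds (f z) :=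
      hstrict.map_nhds_eq_of_surj hsurj
    have h3 : Filter.map (fun z : U => f z) (nhds (⟨z, hz⟩ : U)) = nhds (f z) := by
      rw [← hmap, nhds_subtype_eq_comap]
      have : (fun z : U => f z) = f ∘ (Subtype.val : U → (Fin n → ℂ)) := rfl
      rw [this, ← Filter.map_map, Filter.map_comap, Subtype.range_coe]
      congr 1
      exact inf_of_le_left (Filter.le_principal_iff.2 (hU.mem_nhds hz))
    rw [h3]
  have hinj' : Function.Injective (fun z : U => f z) := by
    rintro ⟨a, ha⟩ ⟨b, hb⟩ hab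
    exact Subtype.ext (hinj ha hb hab)
  exact (Topology.IsOpenEmbedding.of_continuous_injective_isOpenMap hcont hinj' hopen).isEmbedding

end Vale.Agent.P209
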