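import Vale.Agent.P209.Twist

namespace Vale.Agent.P209

open scoped ContDiff

theorem omega0_eq {n : ℕ} (u v : Fin n → ℂ) : omega0 u v = ∑ j, om (u j) (v j) := rfl

theorem prod_symp {n : ℕ} {τ : ℂ → ℂ} (hτ : Area τ) :
    SympOn (fun z : Fin n → ℂ => fun j => τ (z j)) Set.univ := by
  constructor
  · exact (contDiff_pi.2 fun j => hτ.smooth.comp (contDiff_apply ℝ ℂ j)).contDiffOn
  · intro z _ u v
    have h : HasFDerivAt (fun z : Fin n → ℂ => fun j => τ (z j))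
        (ContinuousLinearMap.pi fun j => (fderiv ℝ τ (z j)).comp
          (ContinuousLinearMap.proj (R := ℝ) (φ := fun _ : Fin n => ℂ) j)) z := by
      rw [hasFDerivAt_pi]
      intro j
      have h1 : HasFDerivAt τ (fderiv ℝ τ (z j)) (z j) :=
        (hτ.smooth.differentiable (by simp) _).hasFDerivAt
      have h2 : HasFDerivAt (fun z : Fin n → ℂ => z j)
          (ContinuousLinearMap.proj (R := ℝ) (φ := fun _ : Fin n => ℂ) j) z :=
        (ContinuousLinearMap.proj (R := ℝ) (φ := fun _ : Fin n => ℂ) j).hasFDerivAt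
      exact HasFDerivAt.comp z h1 h2
    rw [h.fderiv, omega0_eq, omega0_eq]
    refine Finset.sum_congr rfl fun j _ => ?_
    exact hτ.area _ _ _

/-! ### logarithmic derivatives -/

variable {n : ℕ}

/-- `h` has logarithmic derivative `L` at `w`. -/
def LD (h : (Fin n → ℂ) → ℂ) (L : (Fin n → ℂ) →L[ℝ] ℂ) (w : Fin n → ℂ) : Prop :=
  HasFDerivAt h (h w • L) w

theorem LD.mul {h₁ h₂ : (Fin n → ℂ) → ℂ} {L₁ L₂ : (Fin n → ℂ) →L[ℝ] ℂ} {w : Fin n → ℂ}
    (H₁ : LD h₁ L₁ w) (H₂ : LD h₂ L₂ w) : LD (fun w => h₁ w * h₂ w) (L₁ + L₂) w := by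
  have := HasFDerivAt.mul H₁ H₂
  refine this.congr_fderiv ?_
  ext u
  simp
  ring

theorem LD.one {w : Fin n → ℂ} : LD (fun _ => 1) 0 w := by
  refine (hasFDerivAt_const (𝕜 := ℝ) (1 : ℂ) w).congr_fderiv ?_
  ext u
  simp

theorem LD.pow {h : (Fin n → ℂ) → ℂ} {L : (Fin n → ℂ) →L[ℝ] ℂ} {w : Fin n → ℂ}
    (H : LD h L w) (m : ℕ) : LD (fun w => h w ^ m) ((m : ℝ) • L) w := by
  induction m with
  | zero =>
    simp only [pow_zero]
    refine (LD.one (w := w)).congr_fderiv ?_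
    ext u
    simp
  | succ m ih =>
    have h1 := ih.mul H
    simp only [← pow_succ] at h1
    refine h1.congr_fderiv ?_
    ext u
    simp
    ring

theorem LD.inv {h : (Fin n → ℂ) → ℂ} {L : (Fin n → ℂ) →L[ℝ] ℂ} {w : Fin n → ℂ}
    (H : LD h L w) (h0 : h w ≠ 0) : LD (fun w => (h w)⁻¹) (-L) w := by
  have h1 : HasFDerivAt (fun z : ℂ => z⁻¹) (-(ContinuousLinearMap.mulLeftRight ℝ ℂ (h w)⁻¹ (h w)⁻¹)) (h w) :=
    hasFDerivAt_inv' h0
  have h2 := HasFDerivAt.comp w h1 H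
  refine h2.congr_fderiv ?_
  ext u
  simp
  field_simp

theorem LD.zpow {h : (Fin n → ℂ) → ℂ} {L : (Fin n → ℂ) →L[ℝ] ℂ} {w : Fin n → ℂ}
    (H : LD h L w) (h0 : h w ≠ 0) (m : ℤ) : LD (fun w => h w ^ m) ((m : ℝ) • L) w := by
  cases m with
  | ofNat m =>
    have := H.pow m
    simp only [Int.ofNat_eq_natCast, zpow_natCast]
    refine this.congr_fderiv ?_
    ext u
    simp
  | negSucc m =>
    have h1 := (H.pow (m + 1)).inv (pow_ne_zero _ h0)
    simp only [zpow_negSucc]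
    refine h1.congr_fderiv ?_
    ext u
    simp
    ring

theorem LD.prod {ι : Type*} (s : Finset ι) {h : ι → (Fin n → ℂ) → ℂ}
    {L : ι → (Fin n → ℂ) →L[ℝ] ℂ} {w : Fin n → ℂ} (H : ∀ i ∈ s, LD (h i) (L i) w) :
    LD (fun w => ∏ i ∈ s, h i w) (∑ i ∈ s, L i) w := by
  classical
  induction s using Finset.induction_on with
  | empty => simpa using LD.one (w := w)
  | insert a s ha ih =>
    have h1 := (H a (Finset.mem_insert_self a s)).mul
      (ih fun i hi => H i (Finset.mem_insert_of_mem hi))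
    simp only [Finset.sum_insert ha, Finset.prod_insert ha]
    exact h1

theorem LD.coord {w : Fin n → ℂ} (i : Fin n) (h0 : w i ≠ 0) :
    LD (fun w : Fin n → ℂ => w i)
      ((w i)⁻¹ • ContinuousLinearMap.proj (R := ℝ) (φ := fun _ : Fin n => ℂ) i) w := by
  unfold LD
  rw [smul_smul, mul_inv_cancel₀ h0, one_smul]
  exact (ContinuousLinearMap.proj (R := ℝ) (φ := fun _ : Fin n => ℂ) i).hasFDerivAt

/-- the norm of a function with a logarithmic derivative -/
theorem LD.norm {h : (Fin n → ℂ) → ℂ} {L : (Fin n → ℂ) →L[ℝ] ℂ} {w : Fin n → ℂ}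
    (H : LD h L w) (h0 : h w ≠ 0) :
    HasFDerivAt (fun w => ‖h w‖) (‖h w‖ • (Complex.reCLM.comp L)) w := by
  have hre : HasFDerivAt (fun w => (h w).re) (Complex.reCLM.comp (h w • L)) w :=
    Complex.reCLM.hasFDerivAt.comp w H
  have him : HasFDerivAt (fun w => (h w).im) (Complex.imCLM.comp (h w • L)) w :=
    Complex.imCLM.hasFDerivAt.comp w H
  have hsq := (hre.pow 2).add (him.pow 2)
  have hpos : 0 < ‖h w‖ := norm_pos_iff.2 h0
  have hsq' : ((fun w => (h w).re) ^ 2 + (fun w => (h w).im) ^ 2) = fun w => ‖h w‖ ^ 2 := by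
    funext w
    simp [sq_eq_norm]
  have hne : (h w).re ^ 2 + (h w).im ^ 2 ≠ 0 := by
    rw [sq_eq_norm]; positivity
  have h5 : HasFDerivAt (fun w => (h w).re ^ 2 + (h w).im ^ 2)
    (((2 * (h w).re) • (Complex.reCLM.comp (h w • L))) +
      ((2 * (h w).im) • (Complex.imCLM.comp (h w • L)))) w := by
    refine hsq.congr_fderiv ?_
    ext u
    simp
  have h6 := h5.sqrt hne
  have h7 : (fun w => Real.sqrt ((h w).re ^ 2 + (h w).im ^ 2)) = fun w => ‖h w‖ := by
    funext w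
    rw [sq_eq_norm, Real.sqrt_sq (norm_nonneg _)]
  rw [h7] at h6
  refine h6.congr_fderiv ?_
  ext u
  simp
  rw [sq_eq_norm, Real.sqrt_sq (norm_nonneg _)]
  have h8 : (h w).re ^ 2 + (h w).im ^ 2 = ‖h w‖ ^ 2 := sq_eq_norm _
  field_simp
  rw [← h8]
  ring

end Vale.Agent.P209
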