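import Vale.Agent.P209.Toric

namespace Vale.Agent.P209

open scoped ContDiff

variable {n : ℕ}

/-- moment coordinates `π |w_i|²` -/
noncomputable def mom (w : Fin n → ℂ) (i : Fin n) : ℝ := Real.pi * ((w i).re ^ 2 + (w i).im ^ 2)

/-- new moment coordinates -/
noncomputable def newMom (A : Matrix (Fin n) (Fin n) ℤ) (b : Fin n → ℝ) (w : Fin n → ℂ)
    (j : Fin n) : ℝ := ∑ i, (A j i : ℝ) * mom w i + b j

/-- monomial map -/
noncomputable def mono (B : Matrix (Fin n) (Fin n) ℤ) (w : Fin n → ℂ) (j : Fin n) : ℂ :=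
  ∏ i, (w i) ^ (B j i)

/-- toric map -/
noncomputable def tor (A B : Matrix (Fin n) (Fin n) ℤ) (b : Fin n → ℝ) (w : Fin n → ℂ)
    (j : Fin n) : ℂ :=
  ((Real.sqrt (newMom A b w j / Real.pi) : ℝ) : ℂ) * (((‖mono B w j‖ : ℝ) : ℂ)⁻¹ * mono B w j)

/-- domain of the toric map -/
def torDom (A : Matrix (Fin n) (Fin n) ℤ) (b : Fin n → ℝ) : Set (Fin n → ℂ) :=
  {w | (∀ i, w i ≠ 0) ∧ ∀ j, 0 < newMom A b w j}

theorem mom_smooth (i : Fin n) : ContDiff ℝ ∞ (fun w : Fin n → ℂ => mom w i) := by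
  unfold mom
  have h1 : ContDiff ℝ ∞ (fun w : Fin n → ℂ => (w i).re) :=
    Complex.reCLM.contDiff.comp (contDiff_apply ℝ ℂ i)
  have h2 : ContDiff ℝ ∞ (fun w : Fin n → ℂ => (w i).im) :=
    Complex.imCLM.contDiff.comp (contDiff_apply ℝ ℂ i)
  exact contDiff_const.mul ((h1.pow 2).add (h2.pow 2))

theorem newMom_smooth (A : Matrix (Fin n) (Fin n) ℤ) (b : Fin n → ℝ) (j : Fin n) :
    ContDiff ℝ ∞ (fun w : Fin n → ℂ => newMom A b w j) := by
  unfold newMom
  exact (ContDiff.sum fun i _ => contDiff_const.mul (mom_smooth i)).add contDiff_const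

theorem torDom_open (A : Matrix (Fin n) (Fin n) ℤ) (b : Fin n → ℝ) : IsOpen (torDom A b) := by
  have h1 : IsOpen {w : Fin n → ℂ | ∀ i, w i ≠ 0} := by
    rw [Set.ofPred_forall]
    exact isOpen_iInter_of_finite fun i =>
      isOpen_ne.preimage (continuous_apply i)
  have h2 : IsOpen {w : Fin n → ℂ | ∀ j, 0 < newMom A b w j} := by
    rw [Set.ofPred_forall]
    exact isOpen_iInter_of_finite fun j =>
      isOpen_lt continuous_const (newMom_smooth A b j).continuous
  exact h1.inter h2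

theorem mono_ne {B : Matrix (Fin n) (Fin n) ℤ} {w : Fin n → ℂ} (h : ∀ i, w i ≠ 0) (j : Fin n) :
    mono B w j ≠ 0 :=
  Finset.prod_ne_zero_iff.2 fun i _ => zpow_ne_zero _ (h i)

theorem zpow_smooth {w : Fin n → ℂ} (i : Fin n) (h : w i ≠ 0) (m : ℤ) :
    ContDiffAt ℝ ∞ (fun w : Fin n → ℂ => (w i) ^ m) w := by
  have h1 : ContDiffAt ℝ ∞ (fun w : Fin n → ℂ => w i) w := (contDiff_apply ℝ ℂ i).contDiffAt
  cases m with
  | ofNat m =>
    simp only [Int.ofNat_eq_natCast, zpow_natCast]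
    exact h1.pow m
  | negSucc m =>
    simp only [zpow_negSucc]
    exact (h1.pow (m + 1)).inv (pow_ne_zero _ h)

theorem mono_smooth {B : Matrix (Fin n) (Fin n) ℤ} {w : Fin n → ℂ} (h : ∀ i, w i ≠ 0)
    (j : Fin n) : ContDiffAt ℝ ∞ (fun w : Fin n → ℂ => mono B w j) w :=
  contDiffAt_prod fun i _ => zpow_smooth i (h i) _

theorem tor_smooth {A B : Matrix (Fin n) (Fin n) ℤ} {b : Fin n → ℝ} :
    ContDiffOn ℝ ∞ (tor A B b) (torDom A b) := by
  intro w hw
  apply ContDiffAt.contDiffWithinAt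
  rw [contDiffAt_pi]
  intro j
  have h1 := mono_smooth (B := B) hw.1 j
  have h2 : ContDiffAt ℝ ∞ (fun w : Fin n → ℂ => (((‖mono B w j‖ : ℝ) : ℂ))) w :=
    Complex.ofRealCLM.contDiff.contDiffAt.comp w (h1.norm ℝ (mono_ne hw.1 j))
  have h3 : ContDiffAt ℝ ∞ (fun w : Fin n → ℂ => Real.sqrt (newMom A b w j / Real.pi)) w := by
    apply ContDiffAt.sqrt
    · exact ((newMom_smooth A b j).div_const _).contDiffAt
    · have := hw.2 j
      have := Real.pi_pos
      positivity
  have h4 : ContDiffAt ℝ ∞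
      (fun w : Fin n → ℂ => ((Real.sqrt (newMom A b w j / Real.pi) : ℝ) : ℂ)) w :=
    Complex.ofRealCLM.contDiff.contDiffAt.comp w h3
  have h5 : (((‖mono B w j‖ : ℝ) : ℂ)) ≠ 0 := by
    simpa using mono_ne hw.1 j
  exact h4.mul ((h2.inv h5).mul h1)

/-- derivative of the moment coordinate -/
noncomputable def dmom (w : Fin n → ℂ) (i : Fin n) : (Fin n → ℂ) →L[ℝ] ℝ :=
  (2 * Real.pi) • (((w i).re • Complex.reCLM + (w i).im • Complex.imCLM).comp
    (ContinuousLinearMap.proj (R := ℝ) (φ := fun _ : Fin n => ℂ) i))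

theorem hasFDerivAt_mom (w : Fin n → ℂ) (i : Fin n) :
    HasFDerivAt (fun w : Fin n → ℂ => mom w i) (dmom w i) w := by
  have h0 : HasFDerivAt (fun w : Fin n → ℂ => w i)
    (ContinuousLinearMap.proj (R := ℝ) (φ := fun _ : Fin n => ℂ) i) w :=
    (ContinuousLinearMap.proj (R := ℝ) (φ := fun _ : Fin n => ℂ) i).hasFDerivAt
  have h1 : HasFDerivAt (fun w : Fin n → ℂ => (w i).re)
      (Complex.reCLM.comp (ContinuousLinearMap.proj (R := ℝ) (φ := fun _ : Fin n => ℂ) i)) w :=
    HasFDerivAt.comp w Complex.reCLM.hasFDerivAt h0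
  have h2 : HasFDerivAt (fun w : Fin n → ℂ => (w i).im)
      (Complex.imCLM.comp (ContinuousLinearMap.proj (R := ℝ) (φ := fun _ : Fin n => ℂ) i)) w :=
    HasFDerivAt.comp w Complex.imCLM.hasFDerivAt h0
  have h3 := ((h1.pow 2).add (h2.pow 2)).const_mul Real.pi
  refine h3.congr_fderiv ?_
  ext u
  simp [dmom]
  ring

/-- derivative of the new moment coordinate -/
noncomputable def dnew (A : Matrix (Fin n) (Fin n) ℤ) (w : Fin n → ℂ) (j : Fin n) :
    (Fin n → ℂ) →L[ℝ] ℝ := ∑ i, (A j i : ℝ) • dmom w i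

theorem hasFDerivAt_newMom (A : Matrix (Fin n) (Fin n) ℤ) (b : Fin n → ℝ) (w : Fin n → ℂ)
    (j : Fin n) : HasFDerivAt (fun w : Fin n → ℂ => newMom A b w j) (dnew A w j) w := by
  unfold newMom dnew
  exact (HasFDerivAt.fun_sum fun i _ => (hasFDerivAt_mom w i).const_mul _).add_const _

/-- log derivative of the monomial -/
noncomputable def lmono (B : Matrix (Fin n) (Fin n) ℤ) (w : Fin n → ℂ) (j : Fin n) :
    (Fin n → ℂ) →L[ℝ] ℂ :=
  ∑ i, (B j i : ℝ) • ((w i)⁻¹ • ContinuousLinearMap.proj (R := ℝ) (φ := fun _ : Fin n => ℂ) i)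

theorem LD_mono {B : Matrix (Fin n) (Fin n) ℤ} {w : Fin n → ℂ} (h : ∀ i, w i ≠ 0) (j : Fin n) :
    LD (fun w => mono B w j) (lmono B w j) w :=
  LD.prod _ fun i _ => (LD.coord i (h i)).zpow (h i) (B j i)

theorem LD_tor {A B : Matrix (Fin n) (Fin n) ℤ} {b : Fin n → ℝ} {w : Fin n → ℂ}
    (hw : w ∈ torDom A b) (j : Fin n) :
    LD (fun w => tor A B b w j)
      (Complex.ofRealCLM.comp ((1 / (2 * newMom A b w j)) • dnew A w j) +
        (-(Complex.ofRealCLM.comp (Complex.reCLM.comp (lmono B w j))) + lmono B w j)) w := by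
  have hV := LD_mono (B := B) hw.1 j
  have hV0 := mono_ne (B := B) hw.1 j
  have hN : LD (fun w => (((‖mono B w j‖ : ℝ) : ℂ)))
      (Complex.ofRealCLM.comp (Complex.reCLM.comp (lmono B w j))) w := by
    have := Complex.ofRealCLM.hasFDerivAt.comp w (hV.norm hV0)
    refine this.congr_fderiv ?_
    ext u
    simp
  have hN0 : (((‖mono B w j‖ : ℝ) : ℂ)) ≠ 0 := by simpa using hV0
  have hpos := hw.2 j
  have hπ := Real.pi_pos
  have hP : LD (fun w => ((Real.sqrt (newMom A b w j / Real.pi) : ℝ) : ℂ))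
      (Complex.ofRealCLM.comp ((1 / (2 * newMom A b w j)) • dnew A w j)) w := by
    have h1 : HasFDerivAt (fun w : Fin n → ℂ => newMom A b w j / Real.pi)
        ((Real.pi)⁻¹ • dnew A w j) w := by
      simp only [div_eq_inv_mul]
      exact (hasFDerivAt_newMom A b w j).const_mul _
    have h2 := h1.sqrt (by positivity)
    have h3 := Complex.ofRealCLM.hasFDerivAt.comp w h2
    refine h3.congr_fderiv ?_
    ext u
    have hs : Real.sqrt (newMom A b w j / Real.pi) ^ 2 = newMom A b w j / Real.pi :=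
      Real.sq_sqrt (by positivity)
    have hs0 : 0 < Real.sqrt (newMom A b w j / Real.pi) := Real.sqrt_pos.2 (by positivity)
    simp only [ContinuousLinearMap.comp_apply, smul_apply, smul_eq_mul,
      Complex.ofRealCLM_apply]
    rw [← Complex.ofReal_mul]
    congr 1
    field_simp
    rw [hs]
    field_simp
  exact hP.mul ((hN.inv hN0).mul hV)

theorem tor_om {A B : Matrix (Fin n) (Fin n) ℤ} {b : Fin n → ℝ} {w : Fin n → ℂ}
    (hw : w ∈ torDom A b) (j : Fin n) (u v : Fin n → ℂ) :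
    om (fderiv ℝ (tor A B b) w u j) (fderiv ℝ (tor A B b) w v j) =
      (1 / (2 * Real.pi)) *
        (dnew A w j u * (lmono B w j v).im - (lmono B w j u).im * dnew A w j v) := by
  have hd : DifferentiableAt ℝ (tor A B b) w :=
    ((tor_smooth (A := A) (B := B) (b := b)).contDiffAt
      ((torDom_open A b).mem_nhds hw)).differentiableAt (by simp)
  have h1 : ∀ u, fderiv ℝ (tor A B b) w u j = fderiv ℝ (fun w => tor A B b w j) w u := by
    intro u
    have := hasFDerivAt_pi'.1 hd.hasFDerivAt j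
    rw [this.fderiv]
    rfl
  have h2 := (LD_tor (B := B) hw j)
  have h3 : ∀ u, fderiv ℝ (tor A B b) w u j = tor A B b w j *
      ((((1 / (2 * newMom A b w j)) * dnew A w j u : ℝ) : ℂ) +
        (-(((lmono B w j u).re : ℝ) : ℂ) + lmono B w j u)) := by
    intro u
    rw [h1, HasFDerivAt.fderiv h2]
    simp
    ring
  have h4 : ∀ u, (((1 / (2 * newMom A b w j)) * dnew A w j u : ℝ) : ℂ) +
        (-(((lmono B w j u).re : ℝ) : ℂ) + lmono B w j u) =
      ⟨(1 / (2 * newMom A b w j)) * dnew A w j u, (lmono B w j u).im⟩ := by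
    intro u
    apply Complex.ext
    · simp only [Complex.add_re, Complex.neg_re, Complex.ofReal_re]; ring
    · simp only [Complex.add_im, Complex.neg_im, Complex.ofReal_im]; ring
  rw [h3, h3, h4, h4]
  have h5 : ∀ m p q : ℂ, om (m * p) (m * q) = ‖m‖ ^ 2 * om p q := by
    intro m p q
    rw [← sq_eq_norm]
    simp [om]
    ring
  rw [h5]
  have hV0 := mono_ne (B := B) hw.1 j
  have hpos := hw.2 j
  have hπ := Real.pi_pos
  have h6 : ‖tor A B b w j‖ ^ 2 = newMom A b w j / Real.pi := by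
    unfold tor
    rw [norm_mul, norm_mul, norm_inv, Complex.norm_real, Complex.norm_real, norm_norm,
      inv_mul_cancel₀ (norm_ne_zero_iff.2 hV0), mul_one, Real.norm_eq_abs, sq_abs,
      Real.sq_sqrt (by positivity)]
  rw [h6]
  simp only [om]
  field_simp

theorem tor_symp {A B : Matrix (Fin n) (Fin n) ℤ} (hAB : A.transpose * B = 1)
    {b : Fin n → ℝ} : SympOn (tor A B b) (torDom A b) := by
  refine ⟨tor_smooth, fun w hw u v => ?_⟩
  rw [omega0_eq]
  simp only [tor_om hw]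
  rw [← Finset.mul_sum]
  have hAB' : ∀ i k, ∑ j, (A j i : ℝ) * (B j k : ℝ) = if i = k then 1 else 0 := by
    intro i k
    have := congrFun (congrFun hAB i) k
    rw [Matrix.mul_apply, Matrix.one_apply] at this
    simp only [Matrix.transpose_apply] at this
    have h2 := congrArg (fun z : ℤ => (z : ℝ)) this
    push_cast at h2
    rw [h2]
  have e1 : ∀ j u, dnew A w j u = ∑ i, (A j i : ℝ) * dmom w i u := by
    intro j u
    simp [dnew]
  have e2 : ∀ j u, (lmono B w j u).im = ∑ k, (B j k : ℝ) * ((w k)⁻¹ * u k).im := by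
    intro j u
    simp only [lmono, sum_apply, Complex.im_sum]
    refine Finset.sum_congr rfl fun k _ => ?_
    simp
  have e3 : ∀ u v : Fin n → ℂ, ∑ j, dnew A w j u * (lmono B w j v).im =
      ∑ i, dmom w i u * ((w i)⁻¹ * v i).im := by
    intro u v
    simp only [e1, e2]
    calc ∑ j, (∑ i, (A j i : ℝ) * dmom w i u) * (∑ k, (B j k : ℝ) * ((w k)⁻¹ * v k).im)
        = ∑ j, ∑ i, ∑ k, ((A j i : ℝ) * (B j k : ℝ)) * (dmom w i u * ((w k)⁻¹ * v k).im) := by
          refine Finset.sum_congr rfl fun j _ => ?_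
          rw [Finset.sum_mul]
          refine Finset.sum_congr rfl fun i _ => ?_
          rw [Finset.mul_sum]
          refine Finset.sum_congr rfl fun k _ => ?_
          ring
      _ = ∑ i, ∑ k, (∑ j, (A j i : ℝ) * (B j k : ℝ)) * (dmom w i u * ((w k)⁻¹ * v k).im) := by
          rw [Finset.sum_comm]
          refine Finset.sum_congr rfl fun i _ => ?_
          rw [Finset.sum_comm]
          refine Finset.sum_congr rfl fun k _ => ?_
          rw [Finset.sum_mul]
      _ = ∑ i, dmom w i u * ((w i)⁻¹ * v i).im := by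
          refine Finset.sum_congr rfl fun i _ => ?_
          simp [hAB']
  have e4 : ∑ j, (dnew A w j u * (lmono B w j v).im - (lmono B w j u).im * dnew A w j v) =
      ∑ i, (dmom w i u * ((w i)⁻¹ * v i).im - dmom w i v * ((w i)⁻¹ * u i).im) := by
    rw [Finset.sum_sub_distrib, Finset.sum_sub_distrib, e3]
    congr 1
    rw [← e3]
    exact Finset.sum_congr rfl fun j _ => mul_comm _ _
  rw [e4, Finset.mul_sum, omega0_eq]
  refine Finset.sum_congr rfl fun i _ => ?_
  have hwi := hw.1 i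
  have hn : (w i).re ^ 2 + (w i).im ^ 2 ≠ 0 := by
    rw [sq_eq_norm]
    have := norm_pos_iff.2 hwi
    positivity
  have hπ := Real.pi_pos
  simp only [dmom, om, smul_apply, ContinuousLinearMap.comp_apply,
    add_apply, ContinuousLinearMap.proj_apply, Complex.reCLM_apply,
    Complex.imCLM_apply, smul_eq_mul, Complex.mul_im, Complex.inv_re, Complex.inv_im,
    Complex.normSq_apply]
  have hn' : (w i).re * (w i).re + (w i).im * (w i).im ≠ 0 := by
    intro h; apply hn; rw [← h]; ring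
  field_simp
  ring

theorem mom_tor {A B : Matrix (Fin n) (Fin n) ℤ} {b : Fin n → ℝ} {w : Fin n → ℂ}
    (hw : w ∈ torDom A b) (j : Fin n) : mom (tor A B b w) j = newMom A b w j := by
  have hV0 := mono_ne (B := B) hw.1 j
  have hpos := hw.2 j
  have hπ := Real.pi_pos
  unfold mom
  rw [sq_eq_norm]
  unfold tor
  rw [norm_mul, norm_mul, norm_inv, Complex.norm_real, Complex.norm_real, norm_norm,
      inv_mul_cancel₀ (norm_ne_zero_iff.2 hV0), mul_one, Real.norm_eq_abs, sq_abs,
      Real.sq_sqrt (by positivity)]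
  field_simp

end Vale.Agent.P209
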