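import Vale.Agent.P209.Symp

namespace Vale.Agent.P209

open scoped ContDiff

/-- planar area form -/
def om (a b : ℂ) : ℝ := a.re * b.im - a.im * b.re

/-- smooth area preserving self map of the plane -/
structure Area (f : ℂ → ℂ) : Prop where
  smooth : ContDiff ℝ ∞ f
  area : ∀ z a b : ℂ, om (fderiv ℝ f z a) (fderiv ℝ f z b) = om a b

theorem Area.id : Area (fun z => z) := by
  refine ⟨contDiff_id, fun z a b => ?_⟩
  simp

theorem Area.comp {f g : ℂ → ℂ} (hf : Area f) (hg : Area g) : Area (fun z => g (f z)) := by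
  refine ⟨hg.smooth.comp hf.smooth, fun z a b => ?_⟩
  have h1 : DifferentiableAt ℝ f z := hf.smooth.differentiable (by simp) z
  have h2 : DifferentiableAt ℝ g (f z) := hg.smooth.differentiable (by simp) (f z)
  have h3 : fderiv ℝ (fun z => g (f z)) z = (fderiv ℝ g (f z)).comp (fderiv ℝ f z) :=
    fderiv_comp z h2 h1
  rw [h3]
  simp only [ContinuousLinearMap.comp_apply]
  rw [hg.area, hf.area]

/-- the rotation profile map: rotate `w` by the angle `φ(|w|²)`. -/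
noncomputable def rot (φ : ℝ → ℝ) (w : ℂ) : ℂ :=
  ((Real.cos (φ (w.re ^ 2 + w.im ^ 2)) : ℝ) + (Real.sin (φ (w.re ^ 2 + w.im ^ 2)) : ℝ) * Complex.I) * w

theorem rot_area {φ : ℝ → ℝ} (hφ : ContDiff ℝ ∞ φ) : Area (rot φ) := by
  have hN : ContDiff ℝ ∞ (fun w : ℂ => w.re ^ 2 + w.im ^ 2) :=
    (Complex.reCLM.contDiff.pow 2).add (Complex.imCLM.contDiff.pow 2)
  have hφN : ContDiff ℝ ∞ (fun w : ℂ => φ (w.re ^ 2 + w.im ^ 2)) := hφ.comp hN
  have hcos : ContDiff ℝ ∞ (fun w : ℂ => Real.cos (φ (w.re ^ 2 + w.im ^ 2))) :=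
    Real.contDiff_cos.comp hφN
  have hsin : ContDiff ℝ ∞ (fun w : ℂ => Real.sin (φ (w.re ^ 2 + w.im ^ 2))) :=
    Real.contDiff_sin.comp hφN
  have hsm : ContDiff ℝ ∞ (rot φ) := by
    unfold rot
    exact ((Complex.ofRealCLM.contDiff.comp hcos).add
      ((Complex.ofRealCLM.contDiff.comp hsin).mul contDiff_const)).mul contDiff_id
  refine ⟨hsm, fun w a b => ?_⟩
  -- derivative of the angle
  set θ : ℂ → ℝ := fun w => φ (w.re ^ 2 + w.im ^ 2) with hθ
  have hNd : HasFDerivAt (fun w : ℂ => w.re ^ 2 + w.im ^ 2)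
      ((2 * w.re) • Complex.reCLM + (2 * w.im) • Complex.imCLM) w := by
    have h1 : HasFDerivAt (fun w : ℂ => w.re) Complex.reCLM w := Complex.reCLM.hasFDerivAt
    have h2 : HasFDerivAt (fun w : ℂ => w.im) Complex.imCLM w := Complex.imCLM.hasFDerivAt
    have h3 := (h1.pow 2).add (h2.pow 2)
    refine (h3.congr_fderiv ?_)
    ext
    simp
  have hφd : HasDerivAt φ (deriv φ (w.re ^ 2 + w.im ^ 2)) (w.re ^ 2 + w.im ^ 2) :=
    (hφ.differentiable (by simp) _).hasDerivAt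
  set D : ℝ := deriv φ (w.re ^ 2 + w.im ^ 2) with hD
  have hθd : HasFDerivAt θ (D • ((2 * w.re) • Complex.reCLM + (2 * w.im) • Complex.imCLM)) w :=
    hφd.comp_hasFDerivAt w hNd
  have hcd : HasFDerivAt (fun w => Real.cos (θ w))
      (-Real.sin (θ w) • (D • ((2 * w.re) • Complex.reCLM + (2 * w.im) • Complex.imCLM))) w :=
    hθd.cos
  have hsd : HasFDerivAt (fun w => Real.sin (θ w))
      (Real.cos (θ w) • (D • ((2 * w.re) • Complex.reCLM + (2 * w.im) • Complex.imCLM))) w :=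
    hθd.sin
  have hre : (fun w => (rot φ w).re) = fun w => Real.cos (θ w) * w.re - Real.sin (θ w) * w.im := by
    funext w; simp [rot, hθ, -Complex.ofReal_cos, -Complex.ofReal_sin]
  have him : (fun w => (rot φ w).im) = fun w => Real.cos (θ w) * w.im + Real.sin (θ w) * w.re := by
    funext w; simp [rot, hθ, -Complex.ofReal_cos, -Complex.ofReal_sin]
  have hd : DifferentiableAt ℝ (rot φ) w := hsm.differentiable (by simp) w
  have h1 : HasFDerivAt (fun w : ℂ => w.re) Complex.reCLM w := Complex.reCLM.hasFDerivAt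
  have h2 : HasFDerivAt (fun w : ℂ => w.im) Complex.imCLM w := Complex.imCLM.hasFDerivAt
  have hred := (hcd.mul h1).sub (hsd.mul h2)
  have himd := (hcd.mul h2).add (hsd.mul h1)
  have e1 : ∀ a, (fderiv ℝ (rot φ) w a).re =
      -Real.sin (θ w) * (D * (2 * w.re * a.re + 2 * w.im * a.im)) * w.re + Real.cos (θ w) * a.re
       - (Real.cos (θ w) * (D * (2 * w.re * a.re + 2 * w.im * a.im)) * w.im
         + Real.sin (θ w) * a.im) := by
    intro a
    have h3 : HasFDerivAt (fun w => (rot φ w).re) (Complex.reCLM.comp (fderiv ℝ (rot φ) w)) w :=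
      Complex.reCLM.hasFDerivAt.comp w hd.hasFDerivAt
    rw [hre] at h3
    have h4 := h3.unique hred
    have h5 := congrArg (fun L : ℂ →L[ℝ] ℝ => L a) h4
    simp at h5
    rw [h5]
    ring
  have e2 : ∀ a, (fderiv ℝ (rot φ) w a).im =
      -Real.sin (θ w) * (D * (2 * w.re * a.re + 2 * w.im * a.im)) * w.im + Real.cos (θ w) * a.im
       + (Real.cos (θ w) * (D * (2 * w.re * a.re + 2 * w.im * a.im)) * w.re
         + Real.sin (θ w) * a.re) := by
    intro a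
    have h3 : HasFDerivAt (fun w => (rot φ w).im) (Complex.imCLM.comp (fderiv ℝ (rot φ) w)) w :=
      Complex.imCLM.hasFDerivAt.comp w hd.hasFDerivAt
    rw [him] at h3
    have h4 := h3.unique himd
    have h5 := congrArg (fun L : ℂ →L[ℝ] ℝ => L a) h4
    simp at h5
    rw [h5]
    ring
  unfold om
  rw [e1, e2, e1, e2]
  have hcs := Real.sin_sq_add_cos_sq (θ w)
  have : ∀ s c : ℝ, s ^ 2 + c ^ 2 = 1 → ∀ x y a1 a2 b1 b2 D : ℝ,
     (-s * (D * (2 * x * a1 + 2 * y * a2)) * x + c * a1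
       - (c * (D * (2 * x * a1 + 2 * y * a2)) * y + s * a2)) *
     (-s * (D * (2 * x * b1 + 2 * y * b2)) * y + c * b2
       + (c * (D * (2 * x * b1 + 2 * y * b2)) * x + s * b1)) -
     (-s * (D * (2 * x * a1 + 2 * y * a2)) * y + c * a2
       + (c * (D * (2 * x * a1 + 2 * y * a2)) * x + s * a1)) *
     (-s * (D * (2 * x * b1 + 2 * y * b2)) * x + c * b1
       - (c * (D * (2 * x * b1 + 2 * y * b2)) * y + s * b2)) = a1 * b2 - a2 * b1 := by
    intro s c h x y a1 a2 b1 b2 D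
    have hc : c ^ 2 = 1 - s ^ 2 := by linarith
    ring_nf
    rw [hc]
    ring
  exact this _ _ hcs _ _ _ _ _ _ _

theorem rot_re (φ : ℝ → ℝ) (w : ℂ) : (rot φ w).re =
    Real.cos (φ (w.re ^ 2 + w.im ^ 2)) * w.re - Real.sin (φ (w.re ^ 2 + w.im ^ 2)) * w.im := by
  simp [rot, -Complex.ofReal_cos, -Complex.ofReal_sin]

theorem rot_im (φ : ℝ → ℝ) (w : ℂ) : (rot φ w).im =
    Real.cos (φ (w.re ^ 2 + w.im ^ 2)) * w.im + Real.sin (φ (w.re ^ 2 + w.im ^ 2)) * w.re := by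
  simp [rot, -Complex.ofReal_cos, -Complex.ofReal_sin]

theorem rot_sq (φ : ℝ → ℝ) (w : ℂ) :
    (rot φ w).re ^ 2 + (rot φ w).im ^ 2 = w.re ^ 2 + w.im ^ 2 := by
  rw [rot_re, rot_im]
  have h := Real.sin_sq_add_cos_sq (φ (w.re ^ 2 + w.im ^ 2))
  set s := Real.sin (φ (w.re ^ 2 + w.im ^ 2))
  set c := Real.cos (φ (w.re ^ 2 + w.im ^ 2))
  have hc : c ^ 2 = 1 - s ^ 2 := by linarith
  ring_nf
  rw [hc]
  ring

theorem rot_neg_rot (φ : ℝ → ℝ) (w : ℂ) : rot (fun t => -φ t) (rot φ w) = w := by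
  have h := Real.sin_sq_add_cos_sq (φ (w.re ^ 2 + w.im ^ 2))
  apply Complex.ext
  · rw [rot_re, rot_sq, rot_re, rot_im, Real.cos_neg, Real.sin_neg]
    set s := Real.sin (φ (w.re ^ 2 + w.im ^ 2))
    set c := Real.cos (φ (w.re ^ 2 + w.im ^ 2))
    have hc : c ^ 2 = 1 - s ^ 2 := by linarith
    ring_nf
    rw [hc]
    ring
  · rw [rot_im, rot_sq, rot_re, rot_im, Real.cos_neg, Real.sin_neg]
    set s := Real.sin (φ (w.re ^ 2 + w.im ^ 2))
    set c := Real.cos (φ (w.re ^ 2 + w.im ^ 2))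
    have hc : c ^ 2 = 1 - s ^ 2 := by linarith
    ring_nf
    rw [hc]
    ring

theorem sq_eq_norm (w : ℂ) : w.re ^ 2 + w.im ^ 2 = ‖w‖ ^ 2 := by
  rw [Complex.sq_norm, Complex.normSq_apply]; ring

theorem rot_norm (φ : ℝ → ℝ) (w : ℂ) : ‖rot φ w‖ = ‖w‖ := by
  have h := rot_sq φ w
  rw [sq_eq_norm, sq_eq_norm] at h
  exact (pow_left_inj₀ (norm_nonneg _) (norm_nonneg _) two_ne_zero).1 h

/-- angle profile: `π` for `t ≤ δ²`, `0` for `t ≥ 2δ²`. -/
noncomputable def prof (δ : ℝ) (t : ℝ) : ℝ := Real.pi * Real.smoothTransition (2 - t / δ ^ 2)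

theorem prof_smooth (δ : ℝ) : ContDiff ℝ ∞ (prof δ) := by
  unfold prof
  exact contDiff_const.mul
    (Real.smoothTransition.contDiff.comp (contDiff_const.sub (contDiff_id.div_const _)))

theorem prof_near {δ t : ℝ} (hδ : 0 < δ) (h : t ≤ δ ^ 2) : prof δ t = Real.pi := by
  unfold prof
  rw [Real.smoothTransition.one_of_one_le, mul_one]
  have : t / δ ^ 2 ≤ 1 := (div_le_one (by positivity)).2 h
  linarith

theorem prof_far {δ t : ℝ} (hδ : 0 < δ) (h : 2 * δ ^ 2 ≤ t) : prof δ t = 0 := by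
  unfold prof
  rw [Real.smoothTransition.zero_of_nonpos, mul_zero]
  have : 2 ≤ t / δ ^ 2 := (le_div_iff₀ (by positivity)).2 h
  linarith

/-- twist about `c` -/
noncomputable def tw (δ c : ℝ) (z : ℂ) : ℂ := (c : ℂ) + rot (prof δ) (z - (c : ℂ))
/-- inverse twist about `c` -/
noncomputable def twi (δ c : ℝ) (z : ℂ) : ℂ := (c : ℂ) + rot (fun t => -prof δ t) (z - (c : ℂ))

theorem area_sub (c : ℂ) : Area (fun z => z - c) := by
  refine ⟨contDiff_id.sub contDiff_const, fun z a b => ?_⟩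
  have : fderiv ℝ (fun z : ℂ => z - c) z = ContinuousLinearMap.id ℝ ℂ := by
    rw [fderiv_sub_const]; exact fderiv_fun_id
  rw [this]; rfl

theorem area_add (c : ℂ) : Area (fun z => c + z) := by
  refine ⟨contDiff_const.add contDiff_id, fun z a b => ?_⟩
  have : fderiv ℝ (fun z : ℂ => c + z) z = ContinuousLinearMap.id ℝ ℂ := by
    rw [fderiv_const_add]; exact fderiv_fun_id
  rw [this]; rfl

theorem twi_area (δ c : ℝ) : Area (twi δ c) :=
  ((area_sub (c : ℂ)).comp (rot_area (prof_smooth δ).neg)).comp (area_add (c : ℂ))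

theorem tw_twi (δ c : ℝ) (z : ℂ) : tw δ c (twi δ c z) = z := by
  unfold tw twi
  rw [add_sub_cancel_left]
  have h := rot_neg_rot (fun t => -prof δ t) (z - (c : ℂ))
  simp only [neg_neg] at h
  rw [h]; ring

theorem twi_tw (δ c : ℝ) (z : ℂ) : twi δ c (tw δ c z) = z := by
  unfold tw twi
  rw [add_sub_cancel_left, rot_neg_rot]
  ring

theorem twi_norm (δ c : ℝ) (z : ℂ) : ‖twi δ c z - (c : ℂ)‖ = ‖z - (c : ℂ)‖ := by
  unfold twi
  rw [add_sub_cancel_left, rot_norm]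

theorem twi_far {δ : ℝ} (hδ : 0 < δ) (c : ℝ) (z : ℂ) (h : 2 * δ ^ 2 ≤ ‖z - (c : ℂ)‖ ^ 2) :
    twi δ c z = z := by
  have h1 : rot (fun t => -prof δ t) (z - (c : ℂ)) = z - (c : ℂ) := by
    apply Complex.ext
    · rw [rot_re, sq_eq_norm, prof_far hδ h]; simp
    · rw [rot_im, sq_eq_norm, prof_far hδ h]; simp
  unfold twi
  rw [h1]; ring

theorem tw_near {δ : ℝ} (hδ : 0 < δ) (c : ℝ) (z : ℂ) (h : ‖z - (c : ℂ)‖ ^ 2 ≤ δ ^ 2) :
    tw δ c z = 2 * (c : ℂ) - z := by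
  have h1 : rot (prof δ) (z - (c : ℂ)) = -(z - (c : ℂ)) := by
    apply Complex.ext
    · rw [rot_re, sq_eq_norm, prof_near hδ h]; simp
    · rw [rot_im, sq_eq_norm, prof_near hδ h]; simp
  unfold tw
  rw [h1]; ring

/-- The composition of inverse twists moving `2Nδ` to the origin. -/
noncomputable def tau (δ : ℝ) : ℕ → ℂ → ℂ
  | 0, z => z
  | (N + 1), z => tau δ N (twi δ ((2 * N + 1) * δ) z)

theorem tau_area (δ : ℝ) (N : ℕ) : Area (tau δ N) := by
  induction N with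
  | zero => exact Area.id
  | succ N ih => exact (twi_area δ _).comp ih

theorem twi_injective (δ c : ℝ) : Function.Injective (twi δ c) :=
  Function.LeftInverse.injective (g := tw δ c) (tw_twi δ c)

theorem tau_injective (δ : ℝ) (N : ℕ) : Function.Injective (tau δ N) := by
  induction N with
  | zero => exact fun a b h => h
  | succ N ih => exact fun a b h => twi_injective δ _ (ih h)

theorem tau_eq_zero {δ : ℝ} (hδ : 0 < δ) (N : ℕ) (z : ℂ)
    (hz : tau δ N z = 0) : z = ((2 * N * δ : ℝ) : ℂ) := by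
  have key : ∀ N : ℕ, tau δ N ((2 * N * δ : ℝ) : ℂ) = 0 := by
    intro N
    induction N with
    | zero => simp [tau]
    | succ N ih =>
      have h1 : twi δ ((2 * N + 1) * δ) ((2 * ((N + 1 : ℕ) : ℝ) * δ : ℝ) : ℂ)
          = ((2 * N * δ : ℝ) : ℂ) := by
        have h2 : tw δ ((2 * N + 1) * δ) ((2 * N * δ : ℝ) : ℂ)
            = ((2 * ((N + 1 : ℕ) : ℝ) * δ : ℝ) : ℂ) := by
          rw [tw_near hδ]
          · push_cast; ring
          · rw [← Complex.ofReal_sub, Complex.norm_real, Real.norm_eq_abs, sq_abs]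
            apply le_of_eq; ring
        rw [← h2, twi_tw]
      show tau δ N (twi δ ((2 * N + 1) * δ) _) = 0
      rw [h1, ih]
  exact tau_injective δ N (hz.trans (key N).symm)

theorem tau_bound_aux {δ : ℝ} (hδ : 0 < δ) (c : ℝ) (z : ℂ)
    (h : ¬ 2 * δ ^ 2 ≤ ‖z - (c : ℂ)‖ ^ 2) (hc : 0 ≤ c) :
    ‖twi δ c z‖ ≤ c + 2 * δ ∧ c - 2 * δ ≤ ‖z‖ := by
  have h1 : ‖z - (c : ℂ)‖ ≤ 2 * δ := by
    by_contra hcon
    push Not at hcon
    apply h
    nlinarith
  have h2 : ‖twi δ c z - (c : ℂ)‖ ≤ 2 * δ := by rw [twi_norm]; exact h1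
  have hcn : ‖(c : ℂ)‖ = c := by rw [Complex.norm_real, Real.norm_eq_abs, abs_of_nonneg hc]
  constructor
  · calc ‖twi δ c z‖ = ‖(c : ℂ) + (twi δ c z - (c : ℂ))‖ := by congr 1; ring
      _ ≤ ‖(c : ℂ)‖ + ‖twi δ c z - (c : ℂ)‖ := norm_add_le _ _
      _ ≤ c + 2 * δ := by rw [hcn]; linarith
  · have h3 : ‖(c : ℂ)‖ ≤ ‖z‖ + ‖z - (c : ℂ)‖ := by
      calc ‖(c : ℂ)‖ = ‖z - (z - (c : ℂ))‖ := by congr 1; ring
        _ ≤ ‖z‖ + ‖z - (c : ℂ)‖ := norm_sub_le _ _
    rw [hcn] at h3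
    linarith

theorem tau_A {δ : ℝ} (hδ : 0 < δ) (N : ℕ) (w : ℂ) :
    tau δ N w = w ∨ ‖tau δ N w‖ ≤ (2 * N + 1) * δ := by
  induction N generalizing w with
  | zero => left; rfl
  | succ N ih =>
    show tau δ N (twi δ ((2 * N + 1) * δ) w) = w ∨ ‖tau δ N (twi δ ((2 * N + 1) * δ) w)‖ ≤ _
    by_cases hf : 2 * δ ^ 2 ≤ ‖w - (((2 * N + 1) * δ : ℝ) : ℂ)‖ ^ 2
    · rw [twi_far hδ _ _ hf]
      rcases ih w with h | h
      · left; exact h
      · right
        refine h.trans ?_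
        push_cast
        nlinarith
    · right
      obtain ⟨h1, h2⟩ := tau_bound_aux hδ _ w hf (by positivity)
      rcases ih (twi δ ((2 * N + 1) * δ) w) with h | h
      · rw [h]
        refine h1.trans ?_
        push_cast
        nlinarith
      · refine h.trans ?_
        push_cast
        nlinarith

theorem tau_B {δ : ℝ} (hδ : 0 < δ) (N : ℕ) (z : ℂ) : ‖tau δ N z‖ ≤ ‖z‖ + 4 * δ := by
  induction N generalizing z with
  | zero => show ‖z‖ ≤ _; linarith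
  | succ N ih =>
    show ‖tau δ N (twi δ ((2 * N + 1) * δ) z)‖ ≤ _
    by_cases hf : 2 * δ ^ 2 ≤ ‖z - (((2 * N + 1) * δ : ℝ) : ℂ)‖ ^ 2
    · rw [twi_far hδ _ _ hf]
      exact ih z
    · obtain ⟨h1, h2⟩ := tau_bound_aux hδ _ z hf (by positivity)
      rcases tau_A hδ N (twi δ ((2 * N + 1) * δ) z) with h | h
      · rw [h]; linarith
      · linarith

end Vale.Agent.P209
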